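import Mathlib

/-!
# P139 / H504 / CR1 : crude exclusion, abstract estimates

`G : E → X` is bounded and Lipschitz (think `G ζ =` density of `V(y) e^{iζ·y}`).

* `DD κ ν G ζ = ∫_0^∞ e^{-κ t} e^{-iν(1-e^{-t})|ζ|²} G(e^{-t/2} ζ) dt`.
* `norm_laplace_le` : Laplace transform of a slowly varying function is `O(1/|κ|)`.
* `norm_DD_le` : `‖DD ζ‖ ≤ (2/|κ|) (M + (|ν||ζ|² M + |ζ| M/2)/a)`.
-/

open MeasureTheory Set Complex Filter Topology

namespace Vale.Agent.P139.H504

section Laplace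

variable {X : Type*} [NormedAddCommGroup X] [NormedSpace ℂ X]

lemma quarter_le {z : ℂ} (h1 : ‖z‖ = 1 / 2) : 1 / 4 ≤ ‖1 - Complex.exp (-z)‖ := by
  have h := Complex.norm_exp_sub_one_sub_id_le (x := -z) (by rw [norm_neg, h1]; norm_num)
  rw [norm_neg, h1] at h
  have h2 : ‖z‖ ≤ ‖1 - Complex.exp (-z)‖ + ‖Complex.exp (-z) - 1 - -z‖ := by
    calc ‖z‖ = ‖(1 - Complex.exp (-z)) + (Complex.exp (-z) - 1 - -z)‖ := by
          congr 1; ring
      _ ≤ _ := norm_add_le _ _
  rw [h1] at h2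
  linarith

lemma norm_cexp_neg_mul (κ : ℂ) (t : ℝ) : ‖Complex.exp (-(κ * t))‖ = Real.exp (-(κ.re * t)) := by
  rw [Complex.norm_exp]
  simp

lemma integrableOn_exp_neg_mul {a : ℝ} (ha : 0 < a) :
    IntegrableOn (fun t : ℝ => Real.exp (-(a * t))) (Ioi 0) := by
  have := exp_neg_integrableOn_Ioi 0 ha
  simpa [neg_mul] using this

lemma integral_exp_neg_mul {a : ℝ} (ha : 0 < a) :
    ∫ t in Ioi (0 : ℝ), Real.exp (-(a * t)) = 1 / a := by
  have := integral_exp_mul_Ioi (a := -a) (by linarith) 0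
  simp only [neg_mul, mul_zero, Real.exp_zero] at this
  rw [this]
  field_simp

lemma integral_Ioi_shift (F : ℝ → X) (h : ℝ) :
    ∫ t in Ioi (0 : ℝ), F (t + h) = ∫ t in Ioi h, F t := by
  rw [← integral_indicator measurableSet_Ioi, ← integral_indicator measurableSet_Ioi,
    ← integral_add_right_eq_self (fun t => (Ioi h).indicator F t) h]
  refine integral_congr_ae (Eventually.of_forall fun t => ?_)
  by_cases ht : 0 < t
  · have h2 : t + h ∈ Ioi h := by simp only [mem_Ioi]; linarith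
    simp only [indicator_of_mem (show t ∈ Ioi (0 : ℝ) from ht), indicator_of_mem h2]
  · have h2 : t + h ∉ Ioi h := by simp only [mem_Ioi]; linarith
    simp only [indicator_of_notMem (show t ∉ Ioi (0 : ℝ) from ht), indicator_of_notMem h2]

/-- Integrability of `e^{-κt} g t`. -/
lemma integrableOn_laplace {κ : ℂ} {a M : ℝ} (ha : 0 < a) (hκ : a ≤ κ.re) {g : ℝ → X}
    (hg : ContinuousOn g (Ici 0)) (hM : ∀ t, 0 ≤ t → ‖g t‖ ≤ M) :
    IntegrableOn (fun t : ℝ => Complex.exp (-(κ * t)) • g t) (Ioi 0) := by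
  have h0 : 0 ≤ M := le_trans (norm_nonneg _) (hM 0 le_rfl)
  refine Integrable.mono' (g := fun t : ℝ => Real.exp (-(a * t)) * M)
    ((integrableOn_exp_neg_mul ha).mul_const M) ?_ ?_
  · refine ContinuousOn.aestronglyMeasurable ?_ measurableSet_Ioi
    refine ContinuousOn.smul ?_ (hg.mono Ioi_subset_Ici_self)
    fun_prop
  · refine (ae_restrict_mem measurableSet_Ioi).mono fun t ht => ?_
    have ht0 : (0 : ℝ) ≤ t := le_of_lt ht
    rw [norm_smul, norm_cexp_neg_mul]
    refine mul_le_mul (Real.exp_le_exp.2 ?_) (hM t ht0) (norm_nonneg _) (Real.exp_nonneg _)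
    have := mul_le_mul_of_nonneg_right hκ ht0
    linarith

/-- The Laplace transform of a slowly varying bounded function. -/
theorem norm_laplace_le [CompleteSpace X] {κ : ℂ} {a M L : ℝ} (ha : 0 < a) (hκ : a ≤ κ.re)
    {g : ℝ → X}
    (hg : ContinuousOn g (Ici 0)) (hM : ∀ t, 0 ≤ t → ‖g t‖ ≤ M)
    (hL : ∀ t h, 0 ≤ t → 0 ≤ h → ‖g (t + h) - g t‖ ≤ L * h) :
    ‖∫ t in Ioi (0 : ℝ), Complex.exp (-(κ * t)) • g t‖ ≤ 2 / ‖κ‖ * (M + L / a) := by
  have h0 : 0 ≤ M := le_trans (norm_nonneg _) (hM 0 le_rfl)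
  have hκ0 : 0 < ‖κ‖ := by
    have h1 : κ.re ≤ ‖κ‖ := (le_abs_self _).trans (Complex.abs_re_le_norm κ)
    linarith
  set h : ℝ := 1 / (2 * ‖κ‖) with hh
  have hhpos : 0 < h := by positivity
  have hz : ‖κ * (h : ℂ)‖ = 1 / 2 := by
    rw [norm_mul, Complex.norm_real, Real.norm_of_nonneg hhpos.le, hh]
    field_simp
  have hq := quarter_le hz
  set F : ℝ → X := fun t => Complex.exp (-(κ * t)) • g t with hF
  have hFint : IntegrableOn F (Ioi 0) := integrableOn_laplace ha hκ hg hM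
  have hFint' : IntegrableOn F (Ioi h) := hFint.mono_set (Ioi_subset_Ioi hhpos.le)
  have hFint'' : IntegrableOn F (Ioc 0 h) := hFint.mono_set Ioc_subset_Ioi_self
  have hg2 : ContinuousOn (fun t => g (t + h)) (Ici 0) := by
    refine hg.comp (by fun_prop) ?_
    intro t ht
    simp only [mem_Ici] at ht ⊢
    linarith
  have hint2 : IntegrableOn (fun t : ℝ => Complex.exp (-(κ * t)) • g (t + h)) (Ioi 0) :=
    integrableOn_laplace ha hκ hg2 (fun t ht => hM _ (by linarith))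
  have hsplit : ∫ t in Ioi (0 : ℝ), F t = (∫ t in Ioc 0 h, F t) + ∫ t in Ioi h, F t := by
    rw [← Ioc_union_Ioi_eq_Ioi hhpos.le]
    exact setIntegral_union (Ioc_disjoint_Ioi le_rfl) measurableSet_Ioi hFint'' hFint'
  have hshift : ∫ t in Ioi h, F t
      = Complex.exp (-(κ * h)) • ∫ t in Ioi (0 : ℝ), Complex.exp (-(κ * t)) • g (t + h) := by
    rw [← integral_Ioi_shift F h, ← integral_smul]
    refine setIntegral_congr_fun measurableSet_Ioi fun t _ => ?_
    simp only [hF]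
    rw [smul_smul, ← Complex.exp_add]
    congr 2
    push_cast
    ring
  have hsub : (∫ t in Ioi (0 : ℝ), Complex.exp (-(κ * t)) • g (t + h)) - ∫ t in Ioi (0 : ℝ), F t
      = ∫ t in Ioi (0 : ℝ), Complex.exp (-(κ * t)) • (g (t + h) - g t) := by
    rw [← integral_sub hint2 hFint]
    refine setIntegral_congr_fun measurableSet_Ioi fun t _ => ?_
    simp only [hF]
    rw [smul_sub]
  have key : (1 - Complex.exp (-(κ * h))) • (∫ t in Ioi (0 : ℝ), F t)
      = (∫ t in Ioc 0 h, F t) + Complex.exp (-(κ * h)) •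
        ∫ t in Ioi (0 : ℝ), Complex.exp (-(κ * t)) • (g (t + h) - g t) := by
    rw [← hsub, smul_sub, ← hshift, sub_smul, one_smul]
    nth_rewrite 1 [hsplit]
    abel
  have hb1 : ‖∫ t in Ioc 0 h, F t‖ ≤ M * h := by
    have := norm_setIntegral_le_of_norm_le_const (f := F) (s := Ioc 0 h) (μ := volume) (C := M)
      (by simp) (fun t ht => ?_)
    · simpa [hhpos.le, Measure.real, Real.volume_Ioc] using this
    · simp only [hF]
      rw [norm_smul, norm_cexp_neg_mul]
      have ht0 : (0 : ℝ) ≤ t := le_of_lt ht.1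
      calc Real.exp (-(κ.re * t)) * ‖g t‖ ≤ 1 * M := by
            refine mul_le_mul ?_ (hM t ht0) (norm_nonneg _) zero_le_one
            rw [Real.exp_le_one_iff]
            have : 0 ≤ κ.re * t := mul_nonneg (by linarith) ht0
            linarith
        _ = M := one_mul M
  have hL0 : 0 ≤ L := by
    have := (norm_nonneg _).trans (hL 0 1 le_rfl zero_le_one)
    linarith
  have hb2 : ‖∫ t in Ioi (0 : ℝ), Complex.exp (-(κ * t)) • (g (t + h) - g t)‖
      ≤ L * h * (1 / a) := by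
    have h1 : ‖∫ t in Ioi (0 : ℝ), Complex.exp (-(κ * t)) • (g (t + h) - g t)‖
        ≤ ∫ t in Ioi (0 : ℝ), Real.exp (-(a * t)) * (L * h) := by
      refine norm_integral_le_of_norm_le ((integrableOn_exp_neg_mul ha).mul_const (L * h)) ?_
      refine (ae_restrict_mem measurableSet_Ioi).mono fun t ht => ?_
      have ht0 : (0 : ℝ) ≤ t := le_of_lt ht
      rw [norm_smul, norm_cexp_neg_mul]
      refine mul_le_mul (Real.exp_le_exp.2 ?_) (hL t h ht0 hhpos.le) (norm_nonneg _)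
        (Real.exp_nonneg _)
      have := mul_le_mul_of_nonneg_right hκ ht0
      linarith
    rw [integral_mul_const, integral_exp_neg_mul ha] at h1
    linarith
  have hb3 : ‖Complex.exp (-(κ * h))‖ ≤ 1 := by
    rw [norm_cexp_neg_mul, Real.exp_le_one_iff]
    have : 0 ≤ κ.re * h := mul_nonneg (by linarith) hhpos.le
    linarith
  have hmain : 1 / 4 * ‖∫ t in Ioi (0 : ℝ), F t‖ ≤ M * h + L * h * (1 / a) := by
    calc 1 / 4 * ‖∫ t in Ioi (0 : ℝ), F t‖
        ≤ ‖1 - Complex.exp (-(κ * h))‖ * ‖∫ t in Ioi (0 : ℝ), F t‖ := by gcongr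
      _ = ‖(1 - Complex.exp (-(κ * h))) • (∫ t in Ioi (0 : ℝ), F t)‖ := (norm_smul _ _).symm
      _ ≤ ‖∫ t in Ioc 0 h, F t‖ + ‖Complex.exp (-(κ * h)) •
        ∫ t in Ioi (0 : ℝ), Complex.exp (-(κ * t)) • (g (t + h) - g t)‖ := by
          rw [key]; exact norm_add_le _ _
      _ ≤ M * h + L * h * (1 / a) := by
          refine add_le_add hb1 ?_
          rw [norm_smul]
          calc _ ≤ 1 * (L * h * (1 / a)) := mul_le_mul hb3 hb2 (norm_nonneg _) zero_le_one
            _ = _ := one_mul _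
  have : ‖∫ t in Ioi (0 : ℝ), F t‖ ≤ 4 * (M * h + L * h * (1 / a)) := by linarith
  refine this.trans (le_of_eq ?_)
  rw [hh]
  field_simp
  ring

end Laplace

end Vale.Agent.P139.H504
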