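import Vale.Agent.P139.H504.CR1

/-!
# P139 / H504 / CR2 : crude exclusion, the kernel `DD` and the far-moving estimate
-/

open MeasureTheory Set Complex Filter Topology

set_option linter.unusedSectionVars false

namespace Vale.Agent.P139.H504

variable {E : Type*} [NormedAddCommGroup E] [InnerProductSpace ℝ E]
variable {X : Type*} [NormedAddCommGroup X] [NormedSpace ℂ X]

/-- The phase `e^{-iν(1-e^{-t})|ζ|²}`. -/
noncomputable def ph (ν t : ℝ) (ζ : E) : ℂ :=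
  Complex.exp (I * ((-(ν * (1 - Real.exp (-t)) * ‖ζ‖ ^ 2) : ℝ) : ℂ))

lemma norm_ph (ν t : ℝ) (ζ : E) : ‖ph ν t ζ‖ = 1 := by
  unfold ph
  rw [mul_comm]
  exact Complex.norm_exp_ofReal_mul_I _

lemma continuous_ph (ν : ℝ) : Continuous fun q : ℝ × E => ph ν q.1 q.2 := by
  unfold ph
  fun_prop

lemma norm_exp_sub_exp_le (x y : ℝ) :
    ‖Complex.exp (I * (x : ℂ)) - Complex.exp (I * (y : ℂ))‖ ≤ |x - y| := by
  have h : Complex.exp (I * (x : ℂ)) - Complex.exp (I * (y : ℂ))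
      = Complex.exp (I * (y : ℂ)) * (Complex.exp (I * ((x - y : ℝ) : ℂ)) - 1) := by
    rw [mul_sub, ← Complex.exp_add, mul_one]
    congr 2
    push_cast
    ring
  have h1 : ‖Complex.exp (I * (y : ℂ))‖ = 1 := by
    rw [mul_comm]; exact Complex.norm_exp_ofReal_mul_I y
  rw [h, norm_mul, h1, one_mul]
  exact Real.norm_exp_I_mul_ofReal_sub_one_le

lemma exp_neg_sub_le {t h : ℝ} (ht : 0 ≤ t) (hh : 0 ≤ h) :
    |Real.exp (-(t + h)) - Real.exp (-t)| ≤ h := by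
  have h1 : Real.exp (-(t + h)) = Real.exp (-t) * Real.exp (-h) := by
    rw [← Real.exp_add]; congr 1; ring
  have h2 : Real.exp (-(t + h)) - Real.exp (-t) = -(Real.exp (-t) * (1 - Real.exp (-h))) := by
    rw [h1]; ring
  have h3 : 1 - Real.exp (-h) ≤ h := by
    have := Real.add_one_le_exp (-h)
    linarith
  have h4 : 0 ≤ 1 - Real.exp (-h) := by
    have : Real.exp (-h) ≤ 1 := by rw [Real.exp_le_one_iff]; linarith
    linarith
  have h5 : Real.exp (-t) ≤ 1 := by rw [Real.exp_le_one_iff]; linarith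
  rw [h2, abs_neg, abs_of_nonneg (mul_nonneg (Real.exp_nonneg _) h4)]
  calc Real.exp (-t) * (1 - Real.exp (-h)) ≤ 1 * h := by
        exact mul_le_mul h5 h3 h4 zero_le_one
    _ = h := one_mul h

/-- Bounded Lipschitz families. -/
structure LipB (M : ℝ) (G : E → X) : Prop where
  bdd : ∀ ζ, ‖G ζ‖ ≤ M
  lip : ∀ ζ ζ', ‖G ζ - G ζ'‖ ≤ M * ‖ζ - ζ'‖

namespace LipB

variable {M : ℝ} {G : E → X}

lemma nonneg [Nonempty E] (hG : LipB M G) : 0 ≤ M :=
  (norm_nonneg _).trans (hG.bdd (Classical.arbitrary E))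

lemma continuous (hG : LipB M G) : Continuous G := by
  have h0 : 0 ≤ M := (norm_nonneg _).trans (hG.bdd 0)
  have : LipschitzWith ⟨M, h0⟩ G := by
    refine LipschitzWith.of_dist_le_mul fun x y => ?_
    rw [dist_eq_norm, dist_eq_norm]
    exact hG.lip x y
  exact this.continuous

end LipB

/-- `∫_0^∞ e^{-κ t} e^{-iν(1-e^{-t})|ζ|²} G(e^{-t/2} ζ) dt`. -/
noncomputable def DD (κ : ℂ) (ν : ℝ) (G : E → X) (ζ : E) : X :=
  ∫ t in Ioi (0 : ℝ), Complex.exp (-(κ * t)) • (ph ν t ζ • G (Real.exp (-t / 2) • ζ))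

lemma continuous_gt {ν : ℝ} {G : E → X} (hG : Continuous G) :
    Continuous fun q : ℝ × E => ph ν q.1 q.2 • G (Real.exp (-q.1 / 2) • q.2) := by
  refine (continuous_ph ν).smul (hG.comp ?_)
  fun_prop

variable {M : ℝ} {G : E → X}

lemma norm_gt_le (hG : LipB M G) (ν t : ℝ) (ζ : E) :
    ‖ph ν t ζ • G (Real.exp (-t / 2) • ζ)‖ ≤ M := by
  rw [norm_smul, norm_ph, one_mul]
  exact hG.bdd _

lemma norm_gt_sub_le (hG : LipB M G) (ν : ℝ) {t h : ℝ} (ht : 0 ≤ t) (hh : 0 ≤ h) (ζ : E) :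
    ‖ph ν (t + h) ζ • G (Real.exp (-(t + h) / 2) • ζ) - ph ν t ζ • G (Real.exp (-t / 2) • ζ)‖
      ≤ (|ν| * ‖ζ‖ ^ 2 * M + M * ‖ζ‖ / 2) * h := by
  have h0 : 0 ≤ M := (norm_nonneg _).trans (hG.bdd 0)
  have hsplit : ph ν (t + h) ζ • G (Real.exp (-(t + h) / 2) • ζ)
      - ph ν t ζ • G (Real.exp (-t / 2) • ζ)
      = (ph ν (t + h) ζ - ph ν t ζ) • G (Real.exp (-(t + h) / 2) • ζ)
        + ph ν t ζ • (G (Real.exp (-(t + h) / 2) • ζ) - G (Real.exp (-t / 2) • ζ)) := by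
    rw [sub_smul, smul_sub]; abel
  rw [hsplit]
  have h1 : ‖ph ν (t + h) ζ - ph ν t ζ‖ ≤ |ν| * ‖ζ‖ ^ 2 * h := by
    unfold ph
    refine (norm_exp_sub_exp_le _ _).trans ?_
    have : -(ν * (1 - Real.exp (-(t + h))) * ‖ζ‖ ^ 2) - -(ν * (1 - Real.exp (-t)) * ‖ζ‖ ^ 2)
        = ν * ‖ζ‖ ^ 2 * (Real.exp (-(t + h)) - Real.exp (-t)) := by ring
    rw [this, abs_mul, abs_mul, abs_of_nonneg (sq_nonneg ‖ζ‖)]
    exact mul_le_mul_of_nonneg_left (exp_neg_sub_le ht hh) (by positivity)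
  have h2 : ‖G (Real.exp (-(t + h) / 2) • ζ) - G (Real.exp (-t / 2) • ζ)‖ ≤ M * ‖ζ‖ / 2 * h := by
    refine (hG.lip _ _).trans ?_
    rw [← sub_smul, norm_smul, Real.norm_eq_abs]
    have h3 : |Real.exp (-(t + h) / 2) - Real.exp (-t / 2)| ≤ h / 2 := by
      have := exp_neg_sub_le (t := t / 2) (h := h / 2) (by linarith) (by linarith)
      have e1 : -(t + h) / 2 = -(t / 2 + h / 2) := by ring
      have e2 : -t / 2 = -(t / 2) := by ring
      rw [e1, e2]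
      exact this
    calc M * (|Real.exp (-(t + h) / 2) - Real.exp (-t / 2)| * ‖ζ‖) ≤ M * (h / 2 * ‖ζ‖) := by
          gcongr
      _ = M * ‖ζ‖ / 2 * h := by ring
  calc _ ≤ ‖(ph ν (t + h) ζ - ph ν t ζ) • G (Real.exp (-(t + h) / 2) • ζ)‖
        + ‖ph ν t ζ • (G (Real.exp (-(t + h) / 2) • ζ) - G (Real.exp (-t / 2) • ζ))‖ :=
        norm_add_le _ _
    _ ≤ |ν| * ‖ζ‖ ^ 2 * h * M + 1 * (M * ‖ζ‖ / 2 * h) := by
        rw [norm_smul, norm_smul, norm_ph]
        refine add_le_add (mul_le_mul h1 (hG.bdd _) (norm_nonneg _) (by positivity)) ?_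
        exact mul_le_mul_of_nonneg_left h2 zero_le_one
    _ = _ := by ring

/-- **Low frequencies.** -/
theorem norm_DD_le [CompleteSpace X] (hG : LipB M G) {κ : ℂ} {a : ℝ} (ha : 0 < a)
    (hκ : a ≤ κ.re) (ν : ℝ) (ζ : E) :
    ‖DD κ ν G ζ‖ ≤ 2 / ‖κ‖ * (M + (|ν| * ‖ζ‖ ^ 2 * M + M * ‖ζ‖ / 2) / a) := by
  unfold DD
  refine norm_laplace_le (g := fun t : ℝ => ph ν t ζ • G (Real.exp (-t / 2) • ζ)) ha hκ ?_ ?_ ?_
  · have h1 : Continuous fun t : ℝ => ((t, ζ) : ℝ × E) := by fun_prop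
    exact ((continuous_gt (ν := ν) hG.continuous).comp h1).continuousOn
  · intro t _
    exact norm_gt_le hG ν t ζ
  · intro t h ht hh
    exact norm_gt_sub_le hG ν ht hh ζ

lemma norm_DD_le' (hG : LipB M G) {κ : ℂ} {a : ℝ} (ha : 0 < a)
    (hκ : a ≤ κ.re) (ν : ℝ) (ζ : E) : ‖DD κ ν G ζ‖ ≤ M / a := by
  unfold DD
  have h0 : 0 ≤ M := (norm_nonneg _).trans (hG.bdd 0)
  have h1 : ‖∫ t in Ioi (0 : ℝ), Complex.exp (-(κ * t)) •
      (ph ν t ζ • G (Real.exp (-t / 2) • ζ))‖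
      ≤ ∫ t in Ioi (0 : ℝ), Real.exp (-(a * t)) * M := by
    refine norm_integral_le_of_norm_le ((integrableOn_exp_neg_mul ha).mul_const M) ?_
    refine (ae_restrict_mem measurableSet_Ioi).mono fun t ht => ?_
    have ht0 : (0 : ℝ) ≤ t := le_of_lt ht
    rw [norm_smul, norm_cexp_neg_mul]
    refine mul_le_mul (Real.exp_le_exp.2 ?_) (norm_gt_le hG ν t ζ) (norm_nonneg _)
      (Real.exp_nonneg _)
    have := mul_le_mul_of_nonneg_right hκ ht0
    linarith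
  rw [integral_mul_const, integral_exp_neg_mul ha] at h1
  refine h1.trans (le_of_eq ?_)
  ring

lemma continuous_DD [CompleteSpace X] (hG : LipB M G) {κ : ℂ} {a : ℝ} (ha : 0 < a)
    (hκ : a ≤ κ.re) (ν : ℝ) : Continuous (DD κ ν G) := by
  unfold DD
  have h0 : 0 ≤ M := (norm_nonneg _).trans (hG.bdd 0)
  refine continuous_of_dominated (bound := fun t : ℝ => Real.exp (-(a * t)) * M) ?_ ?_ ?_ ?_
  · intro ζ
    refine ContinuousOn.aestronglyMeasurable ?_ measurableSet_Ioi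
    have h1 : Continuous fun t : ℝ => ((t, ζ) : ℝ × E) := by fun_prop
    have h2 := (continuous_gt (ν := ν) hG.continuous).comp h1
    refine Continuous.continuousOn (Continuous.smul (by fun_prop) h2)
  · intro ζ
    refine (ae_restrict_mem measurableSet_Ioi).mono fun t ht => ?_
    have ht0 : (0 : ℝ) ≤ t := le_of_lt ht
    rw [norm_smul, norm_cexp_neg_mul]
    refine mul_le_mul (Real.exp_le_exp.2 ?_) (norm_gt_le hG ν t ζ) (norm_nonneg _)
      (Real.exp_nonneg _)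
    have := mul_le_mul_of_nonneg_right hκ ht0
    linarith
  · exact (integrableOn_exp_neg_mul ha).mul_const M
  · refine Eventually.of_forall fun t => ?_
    have h1 : Continuous fun ζ : E => ((t, ζ) : ℝ × E) := by fun_prop
    have h2 := (continuous_gt (ν := ν) hG.continuous).comp h1
    exact Continuous.smul continuous_const h2

end Vale.Agent.P139.H504
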