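import Vale.Agent.P139.H504.CR2

/-!
# P139 / H504 / CR3 : the far-moving estimate
-/

open MeasureTheory Set Complex Filter Topology

set_option linter.unusedSectionVars false

namespace Vale.Agent.P139.H504

variable {E : Type*} [NormedAddCommGroup E] [InnerProductSpace ℝ E] [MeasurableSpace E]
  [BorelSpace E] [FiniteDimensional ℝ E]
variable {X : Type*} [NormedAddCommGroup X] [NormedSpace ℂ X]

/-- Scalar density with moments and `L¹`-Lipschitz translations. -/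
structure PotB (N : ℝ) (v : E → ℂ) : Prop where
  int : Integrable v
  mom : Integrable fun ζ => (1 + ‖ζ‖) ^ 2 * ‖v ζ‖
  mom_le : ∫ ζ, (1 + ‖ζ‖) ^ 2 * ‖v ζ‖ ≤ N
  shift : ∀ b, ∫ ζ, ‖v (ζ + b) - v ζ‖ ≤ N * ‖b‖

namespace PotB

variable {N : ℝ} {v : E → ℂ}

lemma nonneg (hv : PotB N v) : 0 ≤ N :=
  (integral_nonneg fun ζ => by positivity).trans hv.mom_le

lemma l1_le (hv : PotB N v) : ∫ ζ, ‖v ζ‖ ≤ N := by
  refine le_trans (integral_mono hv.int.norm hv.mom fun ζ => ?_) hv.mom_le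
  have h1 : (1 : ℝ) ≤ (1 + ‖ζ‖) ^ 2 := by
    have := norm_nonneg ζ
    nlinarith
  calc ‖v ζ‖ = 1 * ‖v ζ‖ := (one_mul _).symm
    _ ≤ _ := mul_le_mul_of_nonneg_right h1 (norm_nonneg _)

lemma int_mom1 (hv : PotB N v) : Integrable fun ζ => (1 + ‖ζ‖) * ‖v ζ‖ := by
  refine hv.mom.mono' ?_ (Eventually.of_forall fun ζ => ?_)
  · exact (Continuous.aestronglyMeasurable (by fun_prop)).mul hv.int.aestronglyMeasurable.norm
  · have h0 := norm_nonneg ζ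
    rw [Real.norm_of_nonneg (by positivity)]
    refine mul_le_mul_of_nonneg_right ?_ (norm_nonneg _)
    nlinarith

lemma mom1_le (hv : PotB N v) : ∫ ζ, (1 + ‖ζ‖) * ‖v ζ‖ ≤ N := by
  refine le_trans (integral_mono hv.int_mom1 hv.mom fun ζ => ?_) hv.mom_le
  have h0 := norm_nonneg ζ
  refine mul_le_mul_of_nonneg_right ?_ (norm_nonneg _)
  nlinarith

end PotB

/-- `∫ v(ζ-η) e^{-iν(1-e^{-t})|ζ|²} G(e^{-t/2} ζ) dζ`. -/
noncomputable def kk (ν : ℝ) (v : E → ℂ) (G : E → X) (t : ℝ) (η : E) : X :=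
  ∫ ζ, v (ζ - η) • (ph ν t ζ • G (Real.exp (-t / 2) • ζ))

variable {M N : ℝ} {G : E → X} {v : E → ℂ}

lemma integrable_kk (hG : LipB M G) (hv : Integrable v) (ν t : ℝ) (η : E) :
    Integrable fun ζ => v (ζ - η) • (ph ν t ζ • G (Real.exp (-t / 2) • ζ)) := by
  have h0 : 0 ≤ M := (norm_nonneg _).trans (hG.bdd 0)
  have hv' : Integrable fun ζ => v (ζ - η) := hv.comp_sub_right η
  refine Integrable.mono' (g := fun ζ => ‖v (ζ - η)‖ * M) (hv'.norm.mul_const M) ?_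
    (Eventually.of_forall fun ζ => ?_)
  · refine hv'.aestronglyMeasurable.smul (Continuous.aestronglyMeasurable ?_)
    have h1 : Continuous fun ζ : E => ((t, ζ) : ℝ × E) := by fun_prop
    exact (continuous_gt (ν := ν) hG.continuous).comp h1
  · rw [norm_smul]
    exact mul_le_mul_of_nonneg_left (norm_gt_le hG ν t ζ) (norm_nonneg _)

lemma norm_kk_le (hG : LipB M G) (hv : PotB N v) (ν t : ℝ) (η : E) :
    ‖kk ν v G t η‖ ≤ N * M := by
  have h0 : 0 ≤ M := (norm_nonneg _).trans (hG.bdd 0)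
  have hv' : Integrable fun ζ => v (ζ - η) := hv.int.comp_sub_right η
  have h1 : ‖kk ν v G t η‖ ≤ ∫ ζ, ‖v (ζ - η)‖ * M := by
    refine norm_integral_le_of_norm_le (hv'.norm.mul_const M) (Eventually.of_forall fun ζ => ?_)
    rw [norm_smul]
    exact mul_le_mul_of_nonneg_left (norm_gt_le hG ν t ζ) (norm_nonneg _)
  refine h1.trans ?_
  rw [integral_mul_const, integral_sub_right_eq_self (fun ζ => ‖v ζ‖) η]
  exact mul_le_mul_of_nonneg_right hv.l1_le h0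

/-- The shift used in the far-moving estimate. -/
lemma ph_add {ν t : ℝ} {η b : E} (hb : 2 * (ν * (1 - Real.exp (-t))) * inner ℝ η b = Real.pi)
    (ζ : E) :
    ph ν t (ζ + b) = -(ph ν t ζ * Complex.exp (I * ((-(ν * (1 - Real.exp (-t)) *
      (2 * inner ℝ (ζ - η) b + ‖b‖ ^ 2)) : ℝ) : ℂ))) := by
  have h1 : ‖ζ + b‖ ^ 2 = ‖ζ‖ ^ 2 + 2 * inner ℝ η b + (2 * inner ℝ (ζ - η) b + ‖b‖ ^ 2) := by
    rw [norm_add_sq_real, inner_sub_left]
    ring
  unfold ph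
  have h2 : (((-(ν * (1 - Real.exp (-t)) * ‖ζ + b‖ ^ 2) : ℝ)) : ℂ)
      = ((-(ν * (1 - Real.exp (-t)) * ‖ζ‖ ^ 2) : ℝ) : ℂ)
        + ((-(ν * (1 - Real.exp (-t)) * (2 * inner ℝ (ζ - η) b + ‖b‖ ^ 2)) : ℝ) : ℂ)
        - ((Real.pi : ℝ) : ℂ) := by
    rw [← hb, h1]
    push_cast
    ring
  rw [h2, mul_sub, mul_add, Complex.exp_sub, Complex.exp_add]
  have h3 : Complex.exp (I * ((Real.pi : ℝ) : ℂ)) = -1 := by
    rw [mul_comm]; exact Complex.exp_pi_mul_I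
  rw [h3]
  ring

/-- **High frequencies.** -/
theorem norm_kk_far (hG : LipB M G) (hv : PotB N v) {ν t : ℝ} (hν : ν ≠ 0) (ht : 0 < t)
    {η : E} (hη : 1 ≤ ‖η‖) :
    ‖kk ν v G t η‖ ≤ N * M * (Real.pi / (4 * |ν|) * (2 + 2 * |ν| + Real.pi / 2))
      / ((1 - Real.exp (-t)) * ‖η‖) := by
  have hM0 : 0 ≤ M := (norm_nonneg _).trans (hG.bdd 0)
  have hN0 : 0 ≤ N := hv.nonneg
  have hν0 : 0 < |ν| := abs_pos.2 hν
  set τ : ℝ := 1 - Real.exp (-t) with hτ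
  have hτ0 : 0 < τ := by
    have : Real.exp (-t) < 1 := by rw [Real.exp_lt_one_iff]; linarith
    rw [hτ]; linarith
  have hτ1 : τ ≤ 1 := by
    have := Real.exp_pos (-t)
    rw [hτ]; linarith
  have hη0 : 0 < ‖η‖ := by linarith
  set b : E := (Real.pi / (2 * ν * τ * ‖η‖ ^ 2)) • η with hbdef
  have hinner : 2 * (ν * τ) * inner ℝ η b = Real.pi := by
    rw [hbdef, inner_smul_right, real_inner_self_eq_norm_sq]
    field_simp
  have hbn : ‖b‖ = Real.pi / (2 * |ν| * τ * ‖η‖) := by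
    rw [hbdef, norm_smul, Real.norm_eq_abs, abs_div, abs_of_pos Real.pi_pos, abs_mul, abs_mul,
      abs_mul, abs_of_pos hτ0, abs_of_pos (by positivity : (0 : ℝ) < ‖η‖ ^ 2), abs_two]
    field_simp
  set F : E → X := fun ζ => v (ζ - η) • (ph ν t ζ • G (Real.exp (-t / 2) • ζ)) with hF
  have hFint : Integrable F := integrable_kk hG hv.int ν t η
  have hFint2 : Integrable fun ζ => F (ζ + b) := hFint.comp_add_right b
  have h2 : (2 : ℝ) • kk ν v G t η = ∫ ζ, (F ζ + F (ζ + b)) := by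
    rw [integral_add hFint hFint2, integral_add_right_eq_self F b, two_smul]
    rfl
  have hpt : ∀ ζ, ‖F ζ + F (ζ + b)‖ ≤ (‖v (ζ - η)‖ * (M * ‖b‖)
      + (1 + ‖ζ - η‖) * ‖v (ζ - η)‖ * (|ν| * τ * ‖b‖ * (2 + ‖b‖) * M))
      + ‖v (ζ - η + b) - v (ζ - η)‖ * M := by
    intro ζ
    set θ : ℝ := -(ν * τ * (2 * inner ℝ (ζ - η) b + ‖b‖ ^ 2)) with hθ
    have hph : ph ν t (ζ + b) = -(ph ν t ζ * Complex.exp (I * (θ : ℂ))) :=
      ph_add (ν := ν) (t := t) (η := η) (b := b) hinner ζ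
    have hid : F ζ + F (ζ + b) =
        ph ν t ζ • (v (ζ - η) • (G (Real.exp (-t / 2) • ζ) - G (Real.exp (-t / 2) • (ζ + b)))
        + (v (ζ - η) * (1 - Complex.exp (I * (θ : ℂ)))) • G (Real.exp (-t / 2) • (ζ + b))
        + (Complex.exp (I * (θ : ℂ)) * (v (ζ - η) - v (ζ - η + b))) •
          G (Real.exp (-t / 2) • (ζ + b))) := by
      simp only [hF]
      have e1 : ζ + b - η = ζ - η + b := by abel
      rw [hph, e1]
      module
    have hexp1 : ‖Complex.exp (I * (θ : ℂ))‖ = 1 := by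
      rw [mul_comm]; exact Complex.norm_exp_ofReal_mul_I θ
    have hexp2 : ‖1 - Complex.exp (I * (θ : ℂ))‖ ≤ (1 + ‖ζ - η‖) * (|ν| * τ * ‖b‖ * (2 + ‖b‖)) := by
      rw [norm_sub_rev]
      refine (Real.norm_exp_I_mul_ofReal_sub_one_le).trans ?_
      rw [hθ, Real.norm_eq_abs, abs_neg, abs_mul, abs_mul, abs_of_pos hτ0]
      have h3 : |2 * inner ℝ (ζ - η) b + ‖b‖ ^ 2| ≤ (1 + ‖ζ - η‖) * (‖b‖ * (2 + ‖b‖)) := by
        have h4 := abs_real_inner_le_norm (ζ - η) b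
        have h5 : |2 * inner ℝ (ζ - η) b + ‖b‖ ^ 2| ≤ 2 * (‖ζ - η‖ * ‖b‖) + ‖b‖ ^ 2 := by
          refine (abs_add_le _ _).trans ?_
          rw [abs_mul, abs_two, abs_of_nonneg (sq_nonneg ‖b‖)]
          linarith
        have h6 := norm_nonneg (ζ - η)
        have h7 := norm_nonneg b
        nlinarith [mul_nonneg h6 h7, mul_nonneg h6 (mul_nonneg h7 h7)]
      calc |ν| * τ * |2 * inner ℝ (ζ - η) b + ‖b‖ ^ 2|
          ≤ |ν| * τ * ((1 + ‖ζ - η‖) * (‖b‖ * (2 + ‖b‖))) := by gcongr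
        _ = _ := by ring
    have hlip : ‖G (Real.exp (-t / 2) • ζ) - G (Real.exp (-t / 2) • (ζ + b))‖ ≤ M * ‖b‖ := by
      refine (hG.lip _ _).trans ?_
      rw [← smul_sub, norm_smul, Real.norm_of_nonneg (Real.exp_nonneg _)]
      have e2 : ζ - (ζ + b) = -b := by abel
      rw [e2, norm_neg]
      have h8 : Real.exp (-t / 2) ≤ 1 := by rw [Real.exp_le_one_iff]; linarith
      calc M * (Real.exp (-t / 2) * ‖b‖) ≤ M * (1 * ‖b‖) := by gcongr
        _ = M * ‖b‖ := by rw [one_mul]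
    rw [hid, norm_smul, norm_ph, one_mul]
    refine (norm_add_le _ _).trans (add_le_add ((norm_add_le _ _).trans (add_le_add ?_ ?_)) ?_)
    · rw [norm_smul]
      exact mul_le_mul_of_nonneg_left hlip (norm_nonneg _)
    · rw [norm_smul, norm_mul]
      calc ‖v (ζ - η)‖ * ‖1 - Complex.exp (I * (θ : ℂ))‖ * ‖G (Real.exp (-t / 2) • (ζ + b))‖
          ≤ ‖v (ζ - η)‖ * ((1 + ‖ζ - η‖) * (|ν| * τ * ‖b‖ * (2 + ‖b‖))) * M :=
            mul_le_mul (mul_le_mul_of_nonneg_left hexp2 (norm_nonneg _)) (hG.bdd _)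
              (norm_nonneg _) (by positivity)
        _ = _ := by ring
    · rw [norm_smul, norm_mul, hexp1, one_mul, norm_sub_rev]
      exact mul_le_mul_of_nonneg_left (hG.bdd _) (norm_nonneg _)
  have hi1 : Integrable fun ζ => ‖v (ζ - η)‖ * (M * ‖b‖) :=
    (hv.int.comp_sub_right η).norm.mul_const _
  have hi2 : Integrable fun ζ => (1 + ‖ζ - η‖) * ‖v (ζ - η)‖ *
      (|ν| * τ * ‖b‖ * (2 + ‖b‖) * M) :=
    (hv.int_mom1.comp_sub_right η).mul_const _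
  have hi3 : Integrable fun ζ => ‖v (ζ - η + b) - v (ζ - η)‖ * M := by
    have h9 : Integrable fun ζ => v (ζ + b) - v ζ := (hv.int.comp_add_right b).sub hv.int
    exact (h9.comp_sub_right η).norm.mul_const _
  have hbound : ‖∫ ζ, (F ζ + F (ζ + b))‖ ≤ N * (M * ‖b‖)
      + N * (|ν| * τ * ‖b‖ * (2 + ‖b‖) * M) + N * ‖b‖ * M := by
    refine (norm_integral_le_of_norm_le ((hi1.add hi2).add hi3) (Eventually.of_forall hpt)).trans ?_
    have hsum : ∫ ζ, ((fun ζ => ‖v (ζ - η)‖ * (M * ‖b‖)) + (fun ζ => (1 + ‖ζ - η‖) * ‖v (ζ - η)‖ *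
        (|ν| * τ * ‖b‖ * (2 + ‖b‖) * M)) + fun ζ => ‖v (ζ - η + b) - v (ζ - η)‖ * M) ζ
        = (∫ ζ, ‖v ζ‖) * (M * ‖b‖) + (∫ ζ, (1 + ‖ζ‖) * ‖v ζ‖) *
          (|ν| * τ * ‖b‖ * (2 + ‖b‖) * M) + (∫ ζ, ‖v (ζ + b) - v ζ‖) * M := by
      rw [integral_add' (hi1.add hi2) hi3, integral_add' hi1 hi2]
      rw [integral_mul_const, integral_mul_const, integral_mul_const]
      rw [integral_sub_right_eq_self (fun ζ => ‖v ζ‖) η,
        integral_sub_right_eq_self (fun ζ => (1 + ‖ζ‖) * ‖v ζ‖) η,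
        integral_sub_right_eq_self (fun ζ => ‖v (ζ + b) - v ζ‖) η]
    rw [hsum]
    have hb0 := norm_nonneg b
    gcongr
    · exact hv.l1_le
    · exact hv.mom1_le
    · exact hv.shift b
  have h2' : 2 * ‖kk ν v G t η‖ = ‖∫ ζ, (F ζ + F (ζ + b))‖ := by
    rw [← h2, norm_smul, Real.norm_eq_abs, abs_two]
  have hτb : |ν| * τ * ‖b‖ ≤ Real.pi / 2 := by
    rw [hbn]
    have : |ν| * τ * (Real.pi / (2 * |ν| * τ * ‖η‖)) = Real.pi / 2 / ‖η‖ := by
      field_simp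
    rw [this]
    exact div_le_self (by positivity) hη
  have hfin : N * (M * ‖b‖) + N * (|ν| * τ * ‖b‖ * (2 + ‖b‖) * M) + N * ‖b‖ * M
      ≤ N * M * ‖b‖ * (2 + 2 * |ν| + Real.pi / 2) := by
    have hb0 := norm_nonneg b
    have e3 : N * (M * ‖b‖) + N * (|ν| * τ * ‖b‖ * (2 + ‖b‖) * M) + N * ‖b‖ * M
        = N * M * ‖b‖ * (2 + 2 * |ν| * τ + |ν| * τ * ‖b‖) := by ring
    rw [e3]
    have h10 : 2 * |ν| * τ ≤ 2 * |ν| := by
      calc 2 * |ν| * τ ≤ 2 * |ν| * 1 := by gcongr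
        _ = 2 * |ν| := mul_one _
    gcongr
  have hlast : 2 * ‖kk ν v G t η‖ ≤ N * M * ‖b‖ * (2 + 2 * |ν| + Real.pi / 2) :=
    h2'.le.trans (hbound.trans hfin)
  have e4 : N * M * (Real.pi / (4 * |ν|) * (2 + 2 * |ν| + Real.pi / 2)) / (τ * ‖η‖)
      = (N * M * ‖b‖ * (2 + 2 * |ν| + Real.pi / 2)) / 2 := by
    rw [hbn]
    field_simp
    ring
  rw [e4]
  linarith

end Vale.Agent.P139.H504
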