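import Vale.Agent.P139.H504.CR3

/-!
# P139 / H504 / CR4 : the composed kernel is small for large `κ`, uniformly in the frequency
-/

open MeasureTheory Set Complex Filter Topology

set_option linter.unusedSectionVars false

namespace Vale.Agent.P139.H504

variable {E : Type*} [NormedAddCommGroup E] [InnerProductSpace ℝ E] [MeasurableSpace E]
  [BorelSpace E] [FiniteDimensional ℝ E]
variable {X : Type*} [NormedAddCommGroup X] [NormedSpace ℂ X]

/-- `∫ v(ζ-η) DD(ζ) dζ`. -/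
noncomputable def KK (κ : ℂ) (ν : ℝ) (v : E → ℂ) (G : E → X) (η : E) : X :=
  ∫ ζ, v (ζ - η) • DD κ ν G ζ

variable {M N : ℝ} {G : E → X} {v : E → ℂ}

/-- Dominating function on the product. -/
lemma norm_exp_gt_le (hG : LipB M G) {κ : ℂ} {a : ℝ} (hκ : a ≤ κ.re) (ν : ℝ) {t : ℝ}
    (ht : 0 ≤ t) (ζ : E) :
    ‖Complex.exp (-(κ * t)) • (ph ν t ζ • G (Real.exp (-t / 2) • ζ))‖
      ≤ Real.exp (-(a * t)) * M := by
  rw [norm_smul, norm_cexp_neg_mul]
  refine mul_le_mul (Real.exp_le_exp.2 ?_) (norm_gt_le hG ν t ζ) (norm_nonneg _)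
    (Real.exp_nonneg _)
  have := mul_le_mul_of_nonneg_right hκ ht
  linarith

/-- Product integrability for a general scalar factor. -/
lemma integrable_prod_gt (hG : LipB M G) {κ : ℂ} {a : ℝ} (ha : 0 < a) (hκ : a ≤ κ.re) (ν : ℝ)
    {h : E → ℂ} (hh : Integrable h) :
    Integrable (fun q : E × ℝ => h q.1 • (Complex.exp (-(κ * q.2)) •
      (ph ν q.2 q.1 • G (Real.exp (-q.2 / 2) • q.1))))
      ((volume : Measure E).prod (volume.restrict (Ioi (0 : ℝ)))) := by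
  have h0 : 0 ≤ M := (norm_nonneg _).trans (hG.bdd 0)
  have hdom : Integrable (fun q : E × ℝ => ‖h q.1‖ * (Real.exp (-(a * q.2)) * M))
      ((volume : Measure E).prod (volume.restrict (Ioi (0 : ℝ)))) :=
    hh.norm.mul_prod ((integrableOn_exp_neg_mul ha).mul_const M)
  refine hdom.mono' ?_ ?_
  · refine (hh.aestronglyMeasurable.comp_fst).smul (Continuous.aestronglyMeasurable ?_)
    have h1 : Continuous fun q : E × ℝ => ((q.2, q.1) : ℝ × E) := by fun_prop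
    have h2 := (continuous_gt (ν := ν) hG.continuous).comp h1
    refine Continuous.smul (by fun_prop) h2
  · have : ∀ᵐ q : E × ℝ ∂((volume : Measure E).prod (volume.restrict (Ioi (0 : ℝ)))),
        (0 : ℝ) < q.2 := by
      have h3 : (volume : Measure E).prod (volume.restrict (Ioi (0 : ℝ)))
          = ((volume : Measure E).prod volume).restrict (univ ×ˢ Ioi (0 : ℝ)) := by
        rw [← Measure.prod_restrict, Measure.restrict_univ]
      rw [h3]
      refine (ae_restrict_mem (MeasurableSet.univ.prod measurableSet_Ioi)).mono fun q hq => ?_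
      exact hq.2
    refine this.mono fun q hq => ?_
    rw [norm_smul]
    exact mul_le_mul_of_nonneg_left (norm_exp_gt_le hG hκ ν hq.le q.1) (norm_nonneg _)

/-- Fubini for `∫ h(ζ) DD(ζ) dζ`. -/
theorem integral_smul_DD [CompleteSpace X] (hG : LipB M G) {κ : ℂ} {a : ℝ} (ha : 0 < a)
    (hκ : a ≤ κ.re) (ν : ℝ) {h : E → ℂ} (hh : Integrable h) :
    ∫ ζ, h ζ • DD κ ν G ζ = ∫ t in Ioi (0 : ℝ), Complex.exp (-(κ * t)) •
      ∫ ζ, h ζ • (ph ν t ζ • G (Real.exp (-t / 2) • ζ)) := by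
  have h1 : ∀ ζ, h ζ • DD κ ν G ζ = ∫ t in Ioi (0 : ℝ), h ζ • (Complex.exp (-(κ * t)) •
      (ph ν t ζ • G (Real.exp (-t / 2) • ζ))) := by
    intro ζ
    unfold DD
    rw [integral_smul]
  have h2 : ∀ t : ℝ, Complex.exp (-(κ * t)) • ∫ ζ, h ζ • (ph ν t ζ • G (Real.exp (-t / 2) • ζ))
      = ∫ ζ, h ζ • (Complex.exp (-(κ * t)) • (ph ν t ζ • G (Real.exp (-t / 2) • ζ))) := by
    intro t
    rw [← integral_smul]
    refine integral_congr_ae (Eventually.of_forall fun ζ => ?_)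
    simp only []
    rw [smul_comm]
  simp_rw [h1, h2]
  exact integral_integral_swap (integrable_prod_gt hG ha hκ ν hh)

/-- low frequencies -/
lemma norm_KK_low [CompleteSpace X] (hG : LipB M G) (hv : PotB N v) {κ : ℂ} {a : ℝ} (ha : 0 < a)
    (ha1 : a ≤ 1) (hκ : a ≤ κ.re) (ν : ℝ) (η : E) :
    ‖KK κ ν v G η‖ ≤ N * M / a * (2 * (1 + |ν|) * (1 + ‖η‖) ^ 2 / ‖κ‖) := by
  have hM0 : 0 ≤ M := (norm_nonneg _).trans (hG.bdd 0)
  have hκ0 : 0 < ‖κ‖ := by
    have h1 : κ.re ≤ ‖κ‖ := (le_abs_self _).trans (Complex.abs_re_le_norm κ)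
    linarith
  have hDD : ∀ ζ, ‖DD κ ν G ζ‖ ≤ M / a * (2 * (1 + |ν|) / ‖κ‖) * (1 + ‖ζ‖) ^ 2 := by
    intro ζ
    refine (norm_DD_le hG ha hκ ν ζ).trans ?_
    have hz := norm_nonneg ζ
    have hn := abs_nonneg ν
    have h1 : M + (|ν| * ‖ζ‖ ^ 2 * M + M * ‖ζ‖ / 2) / a ≤ M / a * ((1 + |ν|) * (1 + ‖ζ‖) ^ 2) := by
      have h2 : M ≤ M / a := by
        rw [le_div_iff₀ ha]
        nlinarith
      have h3 : M + (|ν| * ‖ζ‖ ^ 2 * M + M * ‖ζ‖ / 2) / a
          ≤ M / a * (1 + |ν| * ‖ζ‖ ^ 2 + ‖ζ‖ / 2) := by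
        have : M / a * (1 + |ν| * ‖ζ‖ ^ 2 + ‖ζ‖ / 2)
            = M / a + (|ν| * ‖ζ‖ ^ 2 * M + M * ‖ζ‖ / 2) / a := by
          field_simp
          ring
        rw [this]
        linarith
      refine h3.trans (mul_le_mul_of_nonneg_left ?_ (by positivity))
      nlinarith [mul_nonneg hn hz, mul_nonneg hn (mul_nonneg hz hz)]
    calc 2 / ‖κ‖ * (M + (|ν| * ‖ζ‖ ^ 2 * M + M * ‖ζ‖ / 2) / a)
        ≤ 2 / ‖κ‖ * (M / a * ((1 + |ν|) * (1 + ‖ζ‖) ^ 2)) := by gcongr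
      _ = _ := by ring
  have hpt : ∀ ζ, ‖v (ζ - η) • DD κ ν G ζ‖ ≤ (1 + ‖ζ - η‖) ^ 2 * ‖v (ζ - η)‖ *
      (M / a * (2 * (1 + |ν|) / ‖κ‖) * (1 + ‖η‖) ^ 2) := by
    intro ζ
    rw [norm_smul]
    have h4 : (1 + ‖ζ‖) ^ 2 ≤ (1 + ‖ζ - η‖) ^ 2 * (1 + ‖η‖) ^ 2 := by
      rw [← mul_pow]
      have h5 : ‖ζ‖ ≤ ‖ζ - η‖ + ‖η‖ := by
        calc ‖ζ‖ = ‖(ζ - η) + η‖ := by rw [sub_add_cancel]
          _ ≤ _ := norm_add_le _ _
      have h6 := norm_nonneg (ζ - η)
      have h7 := norm_nonneg η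
      refine pow_le_pow_left₀ (by positivity) ?_ 2
      nlinarith [mul_nonneg h6 h7]
    calc ‖v (ζ - η)‖ * ‖DD κ ν G ζ‖
        ≤ ‖v (ζ - η)‖ * (M / a * (2 * (1 + |ν|) / ‖κ‖) * (1 + ‖ζ‖) ^ 2) :=
          mul_le_mul_of_nonneg_left (hDD ζ) (norm_nonneg _)
      _ ≤ ‖v (ζ - η)‖ * (M / a * (2 * (1 + |ν|) / ‖κ‖) *
          ((1 + ‖ζ - η‖) ^ 2 * (1 + ‖η‖) ^ 2)) := by gcongr
      _ = _ := by ring
  have h8 : ‖KK κ ν v G η‖ ≤ ∫ ζ, (1 + ‖ζ - η‖) ^ 2 * ‖v (ζ - η)‖ *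
      (M / a * (2 * (1 + |ν|) / ‖κ‖) * (1 + ‖η‖) ^ 2) :=
    norm_integral_le_of_norm_le ((hv.mom.comp_sub_right η).mul_const _) (Eventually.of_forall hpt)
  refine h8.trans ?_
  rw [integral_mul_const, integral_sub_right_eq_self (fun ζ => (1 + ‖ζ‖) ^ 2 * ‖v ζ‖) η]
  calc (∫ ζ, (1 + ‖ζ‖) ^ 2 * ‖v ζ‖) * (M / a * (2 * (1 + |ν|) / ‖κ‖) * (1 + ‖η‖) ^ 2)
      ≤ N * (M / a * (2 * (1 + |ν|) / ‖κ‖) * (1 + ‖η‖) ^ 2) := by
        gcongr
        exact hv.mom_le
    _ = _ := by ring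

/-- constant of the far-moving estimate -/
noncomputable def cfar (ν : ℝ) : ℝ := Real.pi / (4 * |ν|) * (2 + 2 * |ν| + Real.pi / 2)

lemma cfar_nonneg (ν : ℝ) : 0 ≤ cfar ν := by
  unfold cfar
  have := Real.pi_pos
  positivity

/-- high frequencies -/
lemma norm_KK_high [CompleteSpace X] (hG : LipB M G) (hv : PotB N v) {κ : ℂ} {a : ℝ} (ha : 0 < a)
    (ha1 : a ≤ 1) (hκ : a ≤ κ.re) {ν : ℝ} (hν : ν ≠ 0) {S : ℝ} (hS : 1 ≤ S) {η : E}
    (hη : S ^ 2 ≤ ‖η‖) :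
    ‖KK κ ν v G η‖ ≤ N * M / a * ((1 + 2 * cfar ν) / S) := by
  have hM0 : 0 ≤ M := (norm_nonneg _).trans (hG.bdd 0)
  have hN0 : 0 ≤ N := hv.nonneg
  have hS0 : 0 < S := by linarith
  have hη1 : 1 ≤ ‖η‖ := le_trans (by nlinarith) hη
  have hη0 : 0 < ‖η‖ := by linarith
  have hc := cfar_nonneg ν
  set δ : ℝ := 1 / S with hδ
  have hδ0 : 0 < δ := by positivity
  have hδ1 : δ ≤ 1 := by
    rw [hδ, div_le_one hS0]; exact hS
  have hKK : KK κ ν v G η = ∫ t in Ioi (0 : ℝ), Complex.exp (-(κ * t)) • kk ν v G t η :=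
    integral_smul_DD hG ha hκ ν (hv.int.comp_sub_right η)
  rw [hKK]
  -- pointwise bound
  have hpt : ∀ t ∈ Ioi (0 : ℝ), ‖Complex.exp (-(κ * t)) • kk ν v G t η‖ ≤
      (Ioc 0 δ).indicator (fun _ => N * M) t
        + Real.exp (-(a * t)) * (N * M * cfar ν * (2 * S) / ‖η‖) := by
    intro t ht
    have ht0 : (0 : ℝ) < t := ht
    have hexp : ‖Complex.exp (-(κ * t))‖ ≤ Real.exp (-(a * t)) := by
      rw [norm_cexp_neg_mul]
      refine Real.exp_le_exp.2 ?_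
      have := mul_le_mul_of_nonneg_right hκ ht0.le
      linarith
    have hexp1 : Real.exp (-(a * t)) ≤ 1 := by
      rw [Real.exp_le_one_iff]
      have := mul_nonneg ha.le ht0.le
      linarith
    rw [norm_smul]
    by_cases htd : t ≤ δ
    · rw [indicator_of_mem (show t ∈ Ioc 0 δ from ⟨ht0, htd⟩)]
      have h1 : ‖Complex.exp (-(κ * t))‖ * ‖kk ν v G t η‖ ≤ 1 * (N * M) :=
        mul_le_mul (hexp.trans hexp1) (norm_kk_le hG hv ν t η) (norm_nonneg _) zero_le_one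
      have h2 : 0 ≤ Real.exp (-(a * t)) * (N * M * cfar ν * (2 * S) / ‖η‖) := by positivity
      linarith
    · rw [indicator_of_notMem (show t ∉ Ioc 0 δ from fun h => htd h.2), zero_add]
      have htd' : δ < t := lt_of_not_ge htd
      have h3 := norm_kk_far hG hv hν ht0 hη1
      have h4 : δ / 2 ≤ 1 - Real.exp (-t) := by
        have h5 : Real.exp (-t) ≤ Real.exp (-δ) := Real.exp_le_exp.2 (by linarith)
        have h6 : Real.exp (-δ) ≤ 1 - δ / 2 := by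
          have h7 : 1 + δ ≤ Real.exp δ := by
            have := Real.add_one_le_exp δ
            linarith
          have h8 : Real.exp (-δ) = 1 / Real.exp δ := by
            rw [Real.exp_neg]; ring
          have h9 : (0 : ℝ) < 1 + δ := by linarith
          rw [h8]
          calc 1 / Real.exp δ ≤ 1 / (1 + δ) := one_div_le_one_div_of_le h9 h7
            _ ≤ 1 - δ / 2 := by
                rw [div_le_iff₀ h9]
                nlinarith
        linarith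
      have h10 : ‖kk ν v G t η‖ ≤ N * M * cfar ν * (2 * S) / ‖η‖ := by
        refine h3.trans ?_
        have h11 : N * M * cfar ν / ((1 - Real.exp (-t)) * ‖η‖)
            ≤ N * M * cfar ν / (δ / 2 * ‖η‖) := by
          gcongr
        refine h11.trans (le_of_eq ?_)
        rw [hδ]
        field_simp
      exact mul_le_mul hexp h10 (norm_nonneg _) (Real.exp_nonneg _)
  have hi1 : IntegrableOn (fun t : ℝ => (Ioc 0 δ).indicator (fun _ => N * M) t) (Ioi 0) := by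
    refine Integrable.integrableOn ?_
    rw [integrable_indicator_iff measurableSet_Ioc]
    exact integrableOn_const (by simp) enorm_ne_top
  have hi2 : IntegrableOn (fun t : ℝ => Real.exp (-(a * t)) *
      (N * M * cfar ν * (2 * S) / ‖η‖)) (Ioi 0) := (integrableOn_exp_neg_mul ha).mul_const _
  have hle : ‖∫ t in Ioi (0 : ℝ), Complex.exp (-(κ * t)) • kk ν v G t η‖
      ≤ ∫ t in Ioi (0 : ℝ), ((Ioc 0 δ).indicator (fun _ => N * M) t
        + Real.exp (-(a * t)) * (N * M * cfar ν * (2 * S) / ‖η‖)) :=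
    norm_integral_le_of_norm_le (hi1.add hi2)
      ((ae_restrict_mem measurableSet_Ioi).mono fun t ht => hpt t ht)
  refine hle.trans ?_
  rw [integral_add hi1 hi2, integral_mul_const, integral_exp_neg_mul ha]
  have hind : ∫ t in Ioi (0 : ℝ), (Ioc 0 δ).indicator (fun _ => N * M) t = N * M * δ := by
    rw [setIntegral_indicator measurableSet_Ioc, inter_eq_self_of_subset_right Ioc_subset_Ioi_self,
      setIntegral_const]
    simp [Measure.real, hδ0.le]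
    ring
  rw [hind]
  have h12 : 1 / ‖η‖ ≤ 1 / S ^ 2 := one_div_le_one_div_of_le (by positivity) hη
  have h13 : 1 / a * (N * M * cfar ν * (2 * S) / ‖η‖) ≤ N * M / a * (2 * cfar ν / S) := by
    calc 1 / a * (N * M * cfar ν * (2 * S) / ‖η‖)
        = (1 / a * (N * M * cfar ν * (2 * S))) * (1 / ‖η‖) := by ring
      _ ≤ (1 / a * (N * M * cfar ν * (2 * S))) * (1 / S ^ 2) := by gcongr
      _ = _ := by field_simp
  have h14 : N * M * δ ≤ N * M / a * (1 / S) := by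
    have h15 : N * M ≤ N * M / a := by
      rw [le_div_iff₀ ha]
      nlinarith [mul_nonneg hN0 hM0]
    rw [hδ]
    gcongr
  calc N * M * δ + 1 / a * (N * M * cfar ν * (2 * S) / ‖η‖)
      ≤ N * M / a * (1 / S) + N * M / a * (2 * cfar ν / S) := add_le_add h14 h13
    _ = _ := by ring

/-- constant of the composed estimate -/
noncomputable def cc (ν : ℝ) : ℝ := 9 + 8 * |ν| + 2 * cfar ν

lemma cc_pos (ν : ℝ) : 0 < cc ν := by
  unfold cc
  have := cfar_nonneg ν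
  positivity

/-- **Composed kernel** : small for large `κ`, uniformly in the frequency `η`. -/
theorem norm_KK_le [CompleteSpace X] (hG : LipB M G) (hv : PotB N v) {κ : ℂ} {a : ℝ}
    (ha : 0 < a) (ha1 : a ≤ 1) (hκ : a ≤ κ.re) {ν : ℝ} (hν : ν ≠ 0) {S : ℝ} (hS : 1 ≤ S)
    (hSκ : S ^ 5 ≤ ‖κ‖) (η : E) :
    ‖KK κ ν v G η‖ ≤ N * M / a * (cc ν / S) := by
  have hM0 : 0 ≤ M := (norm_nonneg _).trans (hG.bdd 0)
  have hN0 : 0 ≤ N := hv.nonneg
  have hS0 : 0 < S := by linarith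
  have hc := cfar_nonneg ν
  rcases le_total (S ^ 2) ‖η‖ with h | h
  · refine (norm_KK_high hG hv ha ha1 hκ hν hS h).trans ?_
    refine mul_le_mul_of_nonneg_left ?_ (by positivity)
    refine div_le_div_of_nonneg_right ?_ hS0.le
    unfold cc
    have := abs_nonneg ν
    linarith
  · refine (norm_KK_low hG hv ha ha1 hκ ν η).trans ?_
    refine mul_le_mul_of_nonneg_left ?_ (by positivity)
    have h1 : (1 + ‖η‖) ^ 2 ≤ 4 * S ^ 4 := by
      have h2 : 1 + ‖η‖ ≤ 2 * S ^ 2 := by nlinarith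
      calc (1 + ‖η‖) ^ 2 ≤ (2 * S ^ 2) ^ 2 := by gcongr
        _ = 4 * S ^ 4 := by ring
    have h3 : 2 * (1 + |ν|) * (1 + ‖η‖) ^ 2 / ‖κ‖ ≤ 2 * (1 + |ν|) * (4 * S ^ 4) / S ^ 5 := by
      gcongr
    refine h3.trans ?_
    have h4 : 2 * (1 + |ν|) * (4 * S ^ 4) / S ^ 5 = 8 * (1 + |ν|) / S := by
      field_simp
      ring
    rw [h4]
    refine div_le_div_of_nonneg_right ?_ hS0.le
    unfold cc
    linarith

end Vale.Agent.P139.H504
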