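import Vale.Agent.P139.H504.CR4
import Vale.Agent.P139.BU.WX

/-!
# P139 / H504 / CR5 : translations in the plain Wiener space (densities in `L¹`)
-/

open MeasureTheory Set Complex Filter Topology FourierTransform
open scoped RealInnerProductSpace

set_option linter.unusedSectionVars false

namespace Vale.Agent.P139.H504

open Vale.Agent.P139.BU

variable {d : ℕ}

lemma wt_zero (ξ : E d) : wt 0 0 ξ = 1 := by simp [wt]

lemma integrable_nu0 {F : Type*} [NormedAddCommGroup F] [NormedSpace ℝ F] {g : E d → F} :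
    Integrable g (nuK d 0 0) ↔ Integrable g := by
  rw [integrable_nuK le_rfl]
  simp [wt_zero]

/-- The translated density `v(· - ζ)` as an element of `L¹`. -/
noncomputable def tr {v : E d → ℂ} (hv : Integrable v) (ζ : E d) : XK d 0 0 :=
  mkX (integrable_nu0.2 (hv.comp_sub_right ζ))

lemma coe_tr {v : E d → ℂ} (hv : Integrable v) (ζ : E d) :
    (tr hv ζ : E d → ℂ) =ᵐ[volume] fun ξ => v (ξ - ζ) := coe_mkX le_rfl _

lemma norm_mkX0 {φ : E d → ℂ} (h : Integrable φ (nuK d 0 0)) : ‖mkX h‖ = ∫ ξ, ‖φ ξ‖ := by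
  rw [norm_mkX le_rfl]
  simp [wt_zero]

lemma norm_X0 (x : XK d 0 0) : ‖x‖ = ∫ ξ, ‖x ξ‖ := by
  rw [XK.norm_eq le_rfl]
  simp [wt_zero]

lemma norm_tr {v : E d → ℂ} (hv : Integrable v) (ζ : E d) : ‖tr hv ζ‖ = ∫ ξ, ‖v ξ‖ := by
  rw [tr, norm_mkX0]
  exact integral_sub_right_eq_self (fun ξ => ‖v ξ‖) ζ

lemma norm_tr_sub {v : E d → ℂ} (hv : Integrable v) (ζ ζ' : E d) :
    ‖tr hv ζ - tr hv ζ'‖ = ∫ ξ, ‖v (ξ + (ζ' - ζ)) - v ξ‖ := by
  have h1 : ‖tr hv ζ - tr hv ζ'‖ = ∫ ξ, ‖v (ξ - ζ) - v (ξ - ζ')‖ := by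
    rw [norm_X0]
    refine integral_congr_ae ?_
    have h2 : ((tr hv ζ - tr hv ζ' : XK d 0 0) : E d → ℂ) =ᵐ[volume]
        fun ξ => tr hv ζ ξ - tr hv ζ' ξ := (ac_nuK le_rfl).ae_le (Lp.coeFn_sub _ _)
    filter_upwards [h2, coe_tr hv ζ, coe_tr hv ζ'] with ξ e1 e2 e3
    rw [e1, e2, e3]
  rw [h1, ← integral_sub_right_eq_self (fun ξ => ‖v (ξ + (ζ' - ζ)) - v ξ‖) ζ']
  congr 1
  ext ξ
  congr 3
  abel

/-- `tr` is bounded and Lipschitz. -/
lemma lipB_tr {v : E d → ℂ} (hv : Integrable v) {M : ℝ} (h1 : ∫ ξ, ‖v ξ‖ ≤ M)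
    (h2 : ∀ b, ∫ ξ, ‖v (ξ + b) - v ξ‖ ≤ M * ‖b‖) : LipB M (tr hv) := by
  refine ⟨fun ζ => (norm_tr hv ζ).le.trans h1, fun ζ ζ' => ?_⟩
  rw [norm_tr_sub, norm_sub_rev]
  exact h2 _

lemma inv_eq' (φ : E d → ℂ) (y : E d) :
    𝓕⁻ φ y = ∫ ξ, cexp (((2 * Real.pi * ⟪ξ, y⟫ : ℝ) : ℂ) * I) * φ ξ := by
  rw [Real.fourierInv_eq']
  simp only [smul_eq_mul]

/-- the inverse Fourier transform of a translate -/
lemma fourierInv_comp_sub (v : E d → ℂ) (ζ y : E d) :
    𝓕⁻ (fun ξ => v (ξ - ζ)) y = cexp (((2 * Real.pi * ⟪ζ, y⟫ : ℝ) : ℂ) * I) * 𝓕⁻ v y := by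
  rw [inv_eq', inv_eq', ← integral_const_mul,
    ← integral_add_right_eq_self (fun ξ => cexp (((2 * Real.pi * ⟪ξ, y⟫ : ℝ) : ℂ) * I) * v (ξ - ζ)) ζ]
  congr 1
  ext ξ
  rw [add_sub_cancel_right, inner_add_left, ← mul_assoc, ← Complex.exp_add]
  congr 2
  push_cast
  ring

lemma ev_tr {v : E d → ℂ} (hv : Integrable v) (ζ y : E d) :
    ev (tr hv ζ) y = cexp (((2 * Real.pi * ⟪ζ, y⟫ : ℝ) : ℂ) * I) * 𝓕⁻ v y := by
  rw [tr, ev_mkX le_rfl, fourierInv_comp_sub]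

lemma integrable_chr {φ : E d → ℂ} (h : Integrable φ) (y : E d) :
    Integrable fun ξ => cexp (((2 * Real.pi * ⟪ξ, y⟫ : ℝ) : ℂ) * I) * φ ξ := by
  refine h.bdd_mul (c := 1) ?_ ?_
  · exact Continuous.aestronglyMeasurable (by fun_prop)
  · exact Eventually.of_forall fun ξ => (Complex.norm_exp_ofReal_mul_I _).le

/-- **[LIPG]** if `⟨b,y⟩ V(y)` is a Wiener function then translations of the density of `V` in the
direction `b` are Lipschitz in `L¹`. -/
theorem shift_le_of_mul {v U : E d → ℂ} (hv : Integrable v) (hU : Integrable U) (b : E d)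
    (h : ∀ y, 𝓕⁻ U y = ((⟪b, y⟫ : ℝ) : ℂ) * 𝓕⁻ v y) :
    ∫ ξ, ‖v (ξ + b) - v ξ‖ ≤ 2 * Real.pi * ∫ ξ, ‖U ξ‖ := by
  -- the density `W(ξ) = -2πi ∫_0^1 U(ξ + s b) ds`
  set μ : Measure ℝ := volume.restrict (Ioc (0 : ℝ) 1) with hμ
  have : IsFiniteMeasure μ := by
    rw [hμ]; infer_instance
  set P : ℝ × E d → ℂ := fun p => U (p.2 + p.1 • b) with hP
  have hqmp : ∀ s : ℝ, MeasurePreserving (fun ξ : E d => ξ + s • b) volume volume :=
    fun s => measurePreserving_add_right volume _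
  have hPm : AEStronglyMeasurable P (μ.prod volume) := by
    have hmap : Measure.QuasiMeasurePreserving (fun p : ℝ × E d => p.2 + p.1 • b)
        (μ.prod volume) volume := by
      refine ⟨by fun_prop, ?_⟩
      have hsk : MeasurePreserving (fun p : ℝ × E d => (p.1, p.2 + p.1 • b))
          (μ.prod volume) (μ.prod volume) := by
        refine (MeasurePreserving.id μ).skew_product (g := fun s ξ => ξ + s • b) ?_ ?_
        · have : Measurable (fun p : ℝ × E d => p.2 + p.1 • b) := by fun_prop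
          exact this
        · exact Eventually.of_forall fun s => (hqmp s).map_eq
      have := (Measure.quasiMeasurePreserving_snd (μ := μ) (ν := (volume : Measure (E d)))).comp
        hsk.quasiMeasurePreserving
      exact this.absolutelyContinuous
    exact hU.aestronglyMeasurable.comp_quasiMeasurePreserving hmap
  have hPi : Integrable P (μ.prod volume) := by
    rw [integrable_prod_iff hPm]
    refine ⟨Eventually.of_forall fun s => hU.comp_add_right (s • b), ?_⟩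
    have : ∀ s : ℝ, ∫ ξ, ‖P (s, ξ)‖ = ∫ ξ, ‖U ξ‖ := fun s =>
      integral_add_right_eq_self (fun ξ => ‖U ξ‖) (s • b)
    simp_rw [this]
    exact integrable_const _
  set W : E d → ℂ := fun ξ => (-(2 * Real.pi * I) : ℂ) * ∫ s, P (s, ξ) ∂μ with hW
  have hWi : Integrable W := (hPi.integral_prod_right).const_mul _
  have hWle : ∫ ξ, ‖W ξ‖ ≤ 2 * Real.pi * ∫ ξ, ‖U ξ‖ := by
    have h1 : ∀ ξ, ‖W ξ‖ ≤ 2 * Real.pi * ∫ s, ‖P (s, ξ)‖ ∂μ := by
      intro ξ
      simp only [hW]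
      rw [norm_mul, norm_neg, norm_mul, norm_mul, Complex.norm_I, mul_one, Complex.norm_two,
        Complex.norm_real, Real.norm_of_nonneg Real.pi_pos.le]
      exact mul_le_mul_of_nonneg_left (norm_integral_le_integral_norm _)
        (by positivity)
    have h2 : Integrable fun ξ => 2 * Real.pi * ∫ s, ‖P (s, ξ)‖ ∂μ :=
      (hPi.norm.integral_prod_right).const_mul _
    refine (integral_mono hWi.norm h2 h1).trans ?_
    rw [integral_const_mul]
    refine mul_le_mul_of_nonneg_left ?_ (by positivity)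
    have h3 : ∫ ξ, (∫ s, ‖P (s, ξ)‖ ∂μ) = ∫ s, (∫ ξ, ‖P (s, ξ)‖) ∂μ := by
      exact (integral_integral_swap (f := fun s ξ => ‖P (s, ξ)‖) hPi.norm).symm
    rw [h3]
    have h4 : ∀ s : ℝ, ∫ ξ, ‖P (s, ξ)‖ = ∫ ξ, ‖U ξ‖ := fun s =>
      integral_add_right_eq_self (fun ξ => ‖U ξ‖) (s • b)
    simp_rw [h4]
    rw [integral_const, hμ]
    simp [Measure.real]
  -- Fourier side
  have hFW : ∀ y, 𝓕⁻ W y = (cexp (((-(2 * Real.pi * ⟪b, y⟫) : ℝ) : ℂ) * I) - 1) * 𝓕⁻ v y := by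
    intro y
    have e1 : 𝓕⁻ W y = (-(2 * Real.pi * I) : ℂ) * ∫ s, (∫ ξ,
        cexp (((2 * Real.pi * ⟪ξ, y⟫ : ℝ) : ℂ) * I) * P (s, ξ)) ∂μ := by
      rw [inv_eq']
      have e2 : ∀ ξ : E d, cexp (((2 * Real.pi * ⟪ξ, y⟫ : ℝ) : ℂ) * I) * W ξ
          = (-(2 * Real.pi * I) : ℂ) * ∫ s, cexp (((2 * Real.pi * ⟪ξ, y⟫ : ℝ) : ℂ) * I)
            * P (s, ξ) ∂μ := by
        intro ξ
        simp only [hW]
        rw [integral_const_mul]
        ring
      simp_rw [e2]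
      rw [integral_const_mul]
      congr 1
      refine (integral_integral_swap (f := fun s ξ =>
        cexp (((2 * Real.pi * ⟪ξ, y⟫ : ℝ) : ℂ) * I) * P (s, ξ)) ?_).symm
      refine hPi.bdd_mul (c := 1) ?_ ?_
      · exact Continuous.aestronglyMeasurable (by fun_prop)
      · exact Eventually.of_forall fun p => (Complex.norm_exp_ofReal_mul_I _).le
    have e3 : ∀ s : ℝ, ∫ ξ, cexp (((2 * Real.pi * ⟪ξ, y⟫ : ℝ) : ℂ) * I) * P (s, ξ)
        = cexp (((-(2 * Real.pi * ⟪b, y⟫ * s) : ℝ) : ℂ) * I) * (((⟪b, y⟫ : ℝ) : ℂ) * 𝓕⁻ v y) := by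
      intro s
      have e4 := fourierInv_comp_sub U (-(s • b)) y
      rw [inv_eq'] at e4
      simp only [sub_neg_eq_add] at e4
      rw [h y] at e4
      rw [← Complex.ofReal_inj.2 (show -(2 * Real.pi * ⟪b, y⟫ * s)
        = 2 * Real.pi * ⟪-(s • b), y⟫ by rw [inner_neg_left, real_inner_smul_left]; ring)] at e4
      exact e4
    rw [e1]
    simp_rw [e3]
    rw [integral_mul_const]
    set θ : ℝ := 2 * Real.pi * ⟪b, y⟫ with hθ
    have e5 : (θ : ℂ) * I * ∫ s, cexp (((-(θ * s) : ℝ) : ℂ) * I) ∂μ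
        = 1 - cexp (((-θ : ℝ) : ℂ) * I) := by
      have hd : ∀ s ∈ uIcc (0 : ℝ) 1, HasDerivAt (fun s : ℝ => -cexp (((-(θ * s) : ℝ) : ℂ) * I))
          ((θ : ℂ) * I * cexp (((-(θ * s) : ℝ) : ℂ) * I)) s := by
        intro s _
        have g1 : HasDerivAt (fun s : ℝ => ((-(θ * s) : ℝ) : ℂ) * I) (-(θ : ℂ) * I) s := by
          have g0 : HasDerivAt (fun s : ℝ => (-(θ * s) : ℝ)) (-θ) s := by
            have g2 := ((hasDerivAt_id s).const_mul θ).neg
            simp only [mul_one] at g2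
            exact g2
          simpa using (g0.ofReal_comp).mul_const I
        refine (g1.cexp.neg).congr_deriv ?_
        ring
      have hint : IntervalIntegrable (fun s : ℝ => (θ : ℂ) * I * cexp (((-(θ * s) : ℝ) : ℂ) * I))
          volume 0 1 := Continuous.intervalIntegrable (by fun_prop) _ _
      have hftc := intervalIntegral.integral_eq_sub_of_hasDerivAt hd hint
      rw [intervalIntegral.integral_of_le zero_le_one, integral_const_mul] at hftc
      rw [hμ, hftc]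
      simp
      ring
    have e6 : (-(2 * Real.pi * I) : ℂ) * ((∫ s, cexp (((-(θ * s) : ℝ) : ℂ) * I) ∂μ) *
        (((⟪b, y⟫ : ℝ) : ℂ) * 𝓕⁻ v y))
        = -((θ : ℂ) * I * ∫ s, cexp (((-(θ * s) : ℝ) : ℂ) * I) ∂μ) * 𝓕⁻ v y := by
      rw [hθ]
      push_cast
      ring
    rw [e6, e5]
    ring
  have hae : (fun ξ => v (ξ + b) - v ξ) =ᵐ[volume] W := by
    have hvb : Integrable fun ξ => v (ξ + b) := hv.comp_add_right b
    have hdiff : Integrable fun ξ => (v (ξ + b) - v ξ) - W ξ := (hvb.sub hv).sub hWi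
    have hz : ∀ y, 𝓕⁻ (fun ξ => (v (ξ + b) - v ξ) - W ξ) y = 0 := by
      intro y
      have k1 : 𝓕⁻ (fun ξ => (v (ξ + b) - v ξ) - W ξ) y
          = 𝓕⁻ (fun ξ => v (ξ - (-b))) y - 𝓕⁻ v y - 𝓕⁻ W y := by
        simp only [inv_eq', sub_neg_eq_add]
        have i1 : Integrable fun ξ : E d => cexp (((2 * Real.pi * ⟪ξ, y⟫ : ℝ) : ℂ) * I) * v (ξ + b)
            - cexp (((2 * Real.pi * ⟪ξ, y⟫ : ℝ) : ℂ) * I) * v ξ :=
          (integrable_chr hvb y).sub (integrable_chr hv y)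
        rw [← integral_sub (integrable_chr hvb y) (integrable_chr hv y),
          ← integral_sub i1 (integrable_chr hWi y)]
        congr 1
        ext ξ
        ring
      rw [k1, fourierInv_comp_sub, hFW, inner_neg_left]
      have : (2 * Real.pi * -⟪b, y⟫ : ℝ) = -(2 * Real.pi * ⟪b, y⟫) := by ring
      rw [this]
      ring
    filter_upwards [ae_zero_of_fourierInv hdiff hz] with ξ hξ
    exact sub_eq_zero.1 hξ
  calc ∫ ξ, ‖v (ξ + b) - v ξ‖ = ∫ ξ, ‖W ξ‖ := by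
        refine integral_congr_ae ?_
        filter_upwards [hae] with ξ hξ
        rw [hξ]
    _ ≤ _ := hWle

end Vale.Agent.P139.H504
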