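import Vale.Agent.P139.H504.CR5
import Vale.Agent.P139.H940.Res2
import Vale.Agent.P139.H741.XUniq

/-!
# P139 / H504 / CR6 : `V' R(κ) V` is small in the plain Wiener space
-/

open MeasureTheory Set Complex Filter Topology FourierTransform
open scoped RealInnerProductSpace

set_option linter.unusedSectionVars false

namespace Vale.Agent.P139.H504

open Vale.Agent.P139.BU Vale.Agent.P139.H940 Vale.Agent.P139.H741

variable {d : ℕ}

section Op

variable {X : Type*} [NormedAddCommGroup X] [NormedSpace ℂ X] [CompleteSpace X]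
variable {M N : ℝ} {G : E d → X}

/-- `φ ↦ ∫ φ(ζ) DD(ζ) dζ` on `L¹`. -/
noncomputable def DL (hG : LipB M G) {κ : ℂ} {a : ℝ} (ha : 0 < a) (hκ : a ≤ κ.re) (ν : ℝ) :
    XK d 0 0 →L[ℂ] X :=
  LinearMap.mkContinuous
    { toFun := fun x => ∫ ζ, x ζ • DD κ ν G ζ
      map_add' := by
        intro x y
        have hc := continuous_DD hG ha hκ ν
        have hi : ∀ z : XK d 0 0, Integrable fun ζ => z ζ • DD κ ν G ζ := fun z =>
          ((XK.integrable le_rfl z).norm.mul_const (M / a)).mono'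
            ((XK.aesm le_rfl z).smul hc.aestronglyMeasurable)
            (Eventually.of_forall fun ζ => by
              rw [norm_smul]
              exact mul_le_mul_of_nonneg_left (norm_DD_le' hG ha hκ ν ζ) (norm_nonneg _))
        rw [← integral_add (hi x) (hi y)]
        refine integral_congr_ae ?_
        filter_upwards [XK.ae_add le_rfl x y] with ζ hζ
        rw [hζ, add_smul]
      map_smul' := by
        intro c x
        simp only [RingHom.id_apply]
        rw [← integral_smul]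
        refine integral_congr_ae ?_
        filter_upwards [XK.ae_smul le_rfl c x] with ζ hζ
        rw [hζ, mul_smul] }
    (M / a) (by
      intro x
      have hM0 : 0 ≤ M := (norm_nonneg _).trans (hG.bdd 0)
      simp only [LinearMap.coe_mk, AddHom.coe_mk]
      rw [norm_X0]
      have : ‖∫ ζ, x ζ • DD κ ν G ζ‖ ≤ ∫ ζ, ‖x ζ‖ * (M / a) := by
        refine norm_integral_le_of_norm_le ((XK.integrable le_rfl x).norm.mul_const _)
          (Eventually.of_forall fun ζ => ?_)
        rw [norm_smul]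
        exact mul_le_mul_of_nonneg_left (norm_DD_le' hG ha hκ ν ζ) (norm_nonneg _)
      refine this.trans (le_of_eq ?_)
      rw [integral_mul_const]
      ring)

lemma DL_apply (hG : LipB M G) {κ : ℂ} {a : ℝ} (ha : 0 < a) (hκ : a ≤ κ.re) (ν : ℝ)
    (x : XK d 0 0) : DL hG ha hκ ν x = ∫ ζ, x ζ • DD κ ν G ζ := rfl

lemma DL_tr (hG : LipB M G) {κ : ℂ} {a : ℝ} (ha : 0 < a) (hκ : a ≤ κ.re) (ν : ℝ)
    {v : E d → ℂ} (hv : Integrable v) (η : E d) :
    DL hG ha hκ ν (tr hv η) = KK κ ν v G η := by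
  rw [DL_apply, KK]
  refine integral_congr_ae ?_
  filter_upwards [coe_tr hv η] with ζ hζ
  rw [hζ]

/-- multiplication by a potential with density `v`, on `L¹`: `ψ ↦ ∫ ψ(η) v(·-η) dη`. -/
noncomputable def mulX {v : E d → ℂ} (hv : Integrable v) (ψ : E d → ℂ) : XK d 0 0 :=
  ∫ η, ψ η • tr hv η

lemma PotB.lipB_tr {v : E d → ℂ} (hv : PotB N v) : LipB N (tr hv.int) :=
  Vale.Agent.P139.H504.lipB_tr hv.int hv.l1_le hv.shift

lemma integrable_smul_tr {v : E d → ℂ} (hv : PotB N v) {ψ : E d → ℂ} (hψ : Integrable ψ) :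
    Integrable fun η => ψ η • tr hv.int η :=
  (hψ.norm.mul_const N).mono'
    (hψ.aestronglyMeasurable.smul hv.lipB_tr.continuous.aestronglyMeasurable)
    (Eventually.of_forall fun η => by
      rw [norm_smul]
      exact mul_le_mul_of_nonneg_left (hv.lipB_tr.bdd η) (norm_nonneg _))

/-- **Composed operator bound.** -/
theorem norm_DL_mulX_le (hG : LipB M G) {v : E d → ℂ} (hv : PotB N v) {κ : ℂ} {a : ℝ}
    (ha : 0 < a) (ha1 : a ≤ 1) (hκ : a ≤ κ.re) {ν : ℝ} (hν : ν ≠ 0) {S : ℝ} (hS : 1 ≤ S)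
    (hSκ : S ^ 5 ≤ ‖κ‖) {ψ : E d → ℂ} (hψ : Integrable ψ) :
    ‖DL hG ha hκ ν (mulX hv.int ψ)‖ ≤ N * M / a * (cc ν / S) * ∫ η, ‖ψ η‖ := by
  have h1 : DL hG ha hκ ν (mulX hv.int ψ) = ∫ η, ψ η • KK κ ν v G η := by
    unfold mulX
    rw [← ContinuousLinearMap.integral_comp_comm _ (integrable_smul_tr hv hψ)]
    congr 1
    ext1 η
    rw [map_smul, DL_tr]
  rw [h1]
  have h2 : ‖∫ η, ψ η • KK κ ν v G η‖ ≤ ∫ η, ‖ψ η‖ * (N * M / a * (cc ν / S)) := by
    refine norm_integral_le_of_norm_le (hψ.norm.mul_const _) (Eventually.of_forall fun η => ?_)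
    rw [norm_smul]
    exact mul_le_mul_of_nonneg_left (norm_KK_le hG hv ha ha1 hκ hν hS hSκ η) (norm_nonneg _)
  refine h2.trans (le_of_eq ?_)
  rw [integral_mul_const]
  ring

end Op

/-- `ev` of a Bochner integral against translates: multiplication. -/
lemma ev_mulX {N : ℝ} {v : E d → ℂ} (hv : PotB N v) {ψ : E d → ℂ} (hψ : Integrable ψ) (y : E d) :
    ev (mulX hv.int ψ) y = 𝓕⁻ v y * 𝓕⁻ ψ y := by
  have h1 : ev (mulX hv.int ψ) y = ∫ η, ψ η • ev (tr hv.int η) y := by
    have := ContinuousLinearMap.integral_comp_comm (evL (s := 0) (κ := 0) le_rfl y)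
      (integrable_smul_tr hv hψ)
    simp only [map_smul, evL_apply] at this
    rw [this]
    rfl
  rw [h1]
  simp_rw [ev_tr]
  rw [inv_eq' ψ, ← integral_const_mul]
  congr 1
  ext η
  simp only [smul_eq_mul]
  ring

lemma ker_eq (κ : ℂ) (h : E d → ℂ) (t : ℝ) (ζ : E d) :
    H940.ker κ h (t, ζ) = cexp (-(κ * t)) * (ph (4 * Real.pi ^ 2) t ζ * h ζ) := by
  simp only [H940.ker, ph]
  rw [mul_assoc, mul_comm I]

/-- **Key identity** : `ev (∫ h DD) = V · R(κ) h`. -/
theorem ev_DL {M : ℝ} {v : E d → ℂ} {hv : Integrable v} (hG : LipB M (tr hv)) {κ : ℂ} {a : ℝ}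
    (ha : 0 < a) (hκ : a ≤ κ.re) (x : XK d 0 0) (hm : Measurable (x : E d → ℂ)) (y : E d) :
    ev (DL hG ha hκ (4 * Real.pi ^ 2) x) y = 𝓕⁻ v y * res κ (x : E d → ℂ) y := by
  set ν : ℝ := 4 * Real.pi ^ 2 with hν
  have hx : Integrable (x : E d → ℂ) := XK.integrable le_rfl x
  have hκ0 : 0 < κ.re := lt_of_lt_of_le ha hκ
  rw [DL_apply, integral_smul_DD hG ha hκ ν hx]
  have hprod := integrable_prod_gt hG ha hκ ν hx
  -- integrability of the outer integrand
  have hout : IntegrableOn (fun t : ℝ => Complex.exp (-(κ * t)) •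
      ∫ ζ, x ζ • (ph ν t ζ • tr hv (Real.exp (-t / 2) • ζ))) (Ioi 0) := by
    have h1 := hprod.integral_prod_right
    refine h1.congr (Eventually.of_forall fun t => ?_)
    simp only []
    rw [← integral_smul]
    refine integral_congr_ae (Eventually.of_forall fun ζ => ?_)
    simp only []
    rw [smul_comm]
  have e1 : ev (∫ t in Ioi (0 : ℝ), Complex.exp (-(κ * t)) •
      ∫ ζ, x ζ • (ph ν t ζ • tr hv (Real.exp (-t / 2) • ζ))) y
      = ∫ t in Ioi (0 : ℝ), Complex.exp (-(κ * t)) *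
        ∫ ζ, x ζ * (ph ν t ζ * (cexp (((2 * Real.pi * ⟪Real.exp (-t / 2) • ζ, y⟫ : ℝ) : ℂ) * I)
          * 𝓕⁻ v y)) := by
    have h2 := ContinuousLinearMap.integral_comp_comm (evL (s := 0) (κ := 0) le_rfl y) hout
    rw [evL_apply] at h2
    rw [← h2]
    refine integral_congr_ae (Eventually.of_forall fun t => ?_)
    simp only [map_smul, smul_eq_mul]
    congr 1
    have hin : Integrable fun ζ => x ζ • (ph ν t ζ • tr hv (Real.exp (-t / 2) • ζ)) := by
      have := integrable_kk (v := (x : E d → ℂ)) hG hx ν t 0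
      simpa using this
    have h3 := ContinuousLinearMap.integral_comp_comm (evL (s := 0) (κ := 0) le_rfl y) hin
    rw [← h3]
    refine integral_congr_ae (Eventually.of_forall fun ζ => ?_)
    simp only [map_smul, smul_eq_mul, evL_apply, ev_tr]
  refine e1.trans ?_
  -- the resolvent
  have hker : Integrable (H940.ker κ (x : E d → ℂ)) (pm d) := H940.integrable_ker hκ0 hm hx
  have e2 : res κ (x : E d → ℂ) y = ∫ t in Ioi (0 : ℝ), ∫ ζ,
      cexp (((inner ℝ (zet (t, ζ)) y : ℝ) : ℂ) * I) * H940.ker κ (x : E d → ℂ) (t, ζ) := by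
    unfold res osc
    exact integral_prod _ (integrable_osc continuous_zet.aestronglyMeasurable hker y)
  rw [e2, ← integral_const_mul]
  refine integral_congr_ae (Eventually.of_forall fun t => ?_)
  simp only []
  rw [← integral_const_mul, ← integral_const_mul]
  refine integral_congr_ae (Eventually.of_forall fun ζ => ?_)
  simp only []
  rw [ker_eq]
  have e3 : (inner ℝ (zet (t, ζ)) y : ℝ) = 2 * Real.pi * ⟪Real.exp (-t / 2) • ζ, y⟫ := by
    simp only [zet]
    rw [real_inner_smul_left, real_inner_smul_left]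
    have : -(t / 2) = -t / 2 := by ring
    rw [this]
    ring
  rw [e3]
  ring

end Vale.Agent.P139.H504
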