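import Vale.Agent.P139.H504.CR6
import Vale.Agent.P139.H744.Wprod

/-!
# P139 / H504 / CR7 : crude exclusion, final form
-/

open MeasureTheory Set Complex Filter Topology FourierTransform
open scoped RealInnerProductSpace ComplexConjugate

set_option linter.unusedSectionVars false

namespace Vale.Agent.P139.H504

open Vale.Agent.P139.BU Vale.Agent.P139.H940 Vale.Agent.P139.H741 Vale.Agent.P139.H201

variable {d : ℕ}

/-! ### conjugation of the differential operators -/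

lemma fderiv_cj (f : E d → ℂ) (x v : E d) :
    fderiv ℝ (fun y => conj (f y)) x v = conj (fderiv ℝ f x v) := by
  have h2 : fderiv ℝ (fun y => conj (f y)) x
      = (Complex.conjCLE : ℂ →L[ℝ] ℂ).comp (fderiv ℝ f x) :=
    (Complex.conjCLE : ℂ ≃L[ℝ] ℂ).comp_fderiv (f := f) (x := x)
  rw [h2]
  rfl

lemma pd_cj (f : E d → ℂ) (j : Fin d) : pd j (fun y => conj (f y)) = fun y => conj (pd j f y) := by
  funext x
  exact fderiv_cj f x _

lemma lap_cj (f : E d → ℂ) (x : E d) : lap (fun y => conj (f y)) x = conj (lap f x) := by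
  unfold lap
  rw [map_sum]
  refine Finset.sum_congr rfl fun j _ => ?_
  rw [pd_cj, pd_cj]

lemma eul_cj (f : E d → ℂ) (x : E d) : eul (fun y => conj (f y)) x = conj (eul f x) :=
  fderiv_cj f x x

lemma W1_cj (m : ℕ) (z : ℂ) : conj (W1 m z) = W1 m z := by
  unfold W1
  rw [map_pow, map_mul, Complex.conj_conj, mul_comm]

/-! ### elements of the plain Wiener space -/

/-- A Wiener function gives an element of the plain Wiener space. -/
lemma exists_X0 {s : ℕ} {f : E d → ℂ} {C : ℝ} (h : WienerRep s f C) :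
    ∃ x : XK d 0 0, (∀ y, ev x y = f y) ∧ ‖x‖ ≤ C ∧
      Integrable fun ξ => (1 + ‖ξ‖ ^ s) * ‖x ξ‖ := by
  obtain ⟨φ, h1, h2, h3, h4⟩ := h
  refine ⟨mkX (integrable_nu0.2 h1), fun y => ?_, ?_, ?_⟩
  · rw [ev_mkX le_rfl]; exact (h3 y).symm
  · rw [norm_mkX0]
    refine le_trans (integral_mono h1.norm h2 fun ξ => ?_) h4
    have : 0 ≤ ‖ξ‖ ^ s * ‖φ ξ‖ := by positivity
    show ‖φ ξ‖ ≤ (1 + ‖ξ‖ ^ s) * ‖φ ξ‖
    linarith
  · refine h2.congr ?_
    filter_upwards [coe_mkX (s := 0) (κ := 0) le_rfl (integrable_nu0.2 h1)] with ξ hξ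
    rw [hξ]

/-- The potential hypothesis. -/
lemma exists_PotB {V : E d → ℂ} {M : ℝ} (hM : 0 ≤ M) (h0 : WienerRep 2 V M)
    (h1 : ∀ j : Fin d, WienerRep 0 (fun y => ((y j : ℝ) : ℂ) * V y) M) :
    ∃ v : E d → ℂ, PotB ((2 + 2 * Real.pi * d) * M) v ∧ ∀ y, 𝓕⁻ v y = V y := by
  obtain ⟨v, hv, hv2, hv3, hv4⟩ := h0
  choose u hu hu2 hu3 hu4 using h1
  have hpi := Real.pi_pos
  have hmom : Integrable fun ζ => (1 + ‖ζ‖) ^ 2 * ‖v ζ‖ := by
    refine (hv2.const_mul 2).mono' ?_ (Eventually.of_forall fun ζ => ?_)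
    · exact (Continuous.aestronglyMeasurable (by fun_prop)).mul hv.aestronglyMeasurable.norm
    · rw [Real.norm_of_nonneg (by positivity)]
      have : (1 + ‖ζ‖) ^ 2 ≤ 2 * (1 + ‖ζ‖ ^ 2) := by nlinarith [sq_nonneg (1 - ‖ζ‖)]
      calc (1 + ‖ζ‖) ^ 2 * ‖v ζ‖ ≤ (2 * (1 + ‖ζ‖ ^ 2)) * ‖v ζ‖ := by gcongr
        _ = _ := by ring
  refine ⟨v, ⟨hv, hmom, ?_, ?_⟩, fun y => (hv3 y).symm⟩
  · have h5 : ∫ ζ, (1 + ‖ζ‖) ^ 2 * ‖v ζ‖ ≤ ∫ ζ, 2 * ((1 + ‖ζ‖ ^ 2) * ‖v ζ‖) := by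
      refine integral_mono hmom (hv2.const_mul 2) fun ζ => ?_
      have : (1 + ‖ζ‖) ^ 2 ≤ 2 * (1 + ‖ζ‖ ^ 2) := by nlinarith [sq_nonneg (1 - ‖ζ‖)]
      show (1 + ‖ζ‖) ^ 2 * ‖v ζ‖ ≤ 2 * ((1 + ‖ζ‖ ^ 2) * ‖v ζ‖)
      calc (1 + ‖ζ‖) ^ 2 * ‖v ζ‖ ≤ (2 * (1 + ‖ζ‖ ^ 2)) * ‖v ζ‖ := by gcongr
        _ = _ := by ring
    rw [integral_const_mul] at h5
    have h6 : 0 ≤ 2 * Real.pi * d * M := by positivity
    calc _ ≤ 2 * ∫ ζ, (1 + ‖ζ‖ ^ 2) * ‖v ζ‖ := h5
      _ ≤ 2 * M := by linarith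
      _ ≤ _ := by linarith
  · intro b
    set U : E d → ℂ := fun ξ => ∑ j, ((b j : ℝ) : ℂ) * u j ξ with hU
    have hUi : Integrable U := integrable_finsetSum _ fun j _ => (hu j).const_mul _
    have hUf : ∀ y, 𝓕⁻ U y = ((⟪b, y⟫ : ℝ) : ℂ) * 𝓕⁻ v y := by
      intro y
      rw [inv_eq']
      have e1 : ∀ ξ : E d, cexp (((2 * Real.pi * ⟪ξ, y⟫ : ℝ) : ℂ) * I) * U ξ
          = ∑ j, ((b j : ℝ) : ℂ) * (cexp (((2 * Real.pi * ⟪ξ, y⟫ : ℝ) : ℂ) * I) * u j ξ) := by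
        intro ξ
        simp only [hU]
        rw [Finset.mul_sum]
        refine Finset.sum_congr rfl fun j _ => ?_
        ring
      simp_rw [e1]
      rw [integral_finsetSum _ fun j _ => (integrable_chr (hu j) y).const_mul _]
      have e2 : ∀ j, ∫ ξ, ((b j : ℝ) : ℂ) *
          (cexp (((2 * Real.pi * ⟪ξ, y⟫ : ℝ) : ℂ) * I) * u j ξ)
          = ((b j : ℝ) : ℂ) * (((y j : ℝ) : ℂ) * V y) := by
        intro j
        rw [integral_const_mul, ← inv_eq']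
        congr 1
        exact (hu3 j y).symm
      simp_rw [e2]
      rw [← hv3 y]
      have e3 : ((⟪b, y⟫ : ℝ) : ℂ) = ∑ j, ((b j : ℝ) : ℂ) * ((y j : ℝ) : ℂ) := by
        rw [PiLp.inner_apply]
        push_cast
        refine Finset.sum_congr rfl fun j _ => ?_
        simp [mul_comm]
      rw [e3, Finset.sum_mul]
      refine Finset.sum_congr rfl fun j _ => ?_
      ring
    have hUn : ∫ ξ, ‖U ξ‖ ≤ d * (‖b‖ * M) := by
      have k1 : ∀ ξ, ‖U ξ‖ ≤ ∑ j, ‖b‖ * ‖u j ξ‖ := by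
        intro ξ
        refine (norm_sum_le _ _).trans (Finset.sum_le_sum fun j _ => ?_)
        rw [norm_mul, Complex.norm_real, Real.norm_eq_abs]
        exact mul_le_mul_of_nonneg_right (abs_coord_le b j) (norm_nonneg _)
      have k2 : Integrable fun ξ => ∑ j, ‖b‖ * ‖u j ξ‖ :=
        integrable_finsetSum _ fun j _ => (hu j).norm.const_mul _
      refine (integral_mono hUi.norm k2 k1).trans ?_
      rw [integral_finsetSum _ fun j _ => (hu j).norm.const_mul _]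
      have k3 : ∀ j ∈ (Finset.univ : Finset (Fin d)), ∫ ξ, ‖b‖ * ‖u j ξ‖ ≤ ‖b‖ * M := by
        intro j _
        rw [integral_const_mul]
        refine mul_le_mul_of_nonneg_left ?_ (norm_nonneg _)
        refine le_trans (integral_mono (hu j).norm (hu2 j) fun ξ => ?_) (hu4 j)
        show ‖u j ξ‖ ≤ (1 + ‖ξ‖ ^ 0) * ‖u j ξ‖
        have := norm_nonneg (u j ξ)
        simp only [pow_zero]
        linarith
      refine (Finset.sum_le_sum k3).trans (le_of_eq ?_)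
      simp
    refine (shift_le_of_mul hv hUi b hUf).trans ?_
    calc 2 * Real.pi * ∫ ξ, ‖U ξ‖ ≤ 2 * Real.pi * (d * (‖b‖ * M)) := by gcongr
      _ ≤ (2 + 2 * Real.pi * d) * M * ‖b‖ := by
          have : 0 ≤ 2 * (M * ‖b‖) := by positivity
          nlinarith

/-- **Free resolvent, mild form.** -/
theorem mild_of_eqn {κ : ℂ} (hκ : 0 < κ.re) {F H : E d → ℂ} {CF CH : ℝ}
    (hF : WienerRep 2 F CF) (hH : WienerRep 2 H CH)
    (heq : ∀ y, κ * F y - (I * lap F y - (1 / 2) * eul F y) = H y) :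
    ∃ x : XK d 0 0, Measurable (x : E d → ℂ) ∧ (∀ y, ev x y = H y) ∧
      (∀ y, F y = res κ (x : E d → ℂ) y) ∧
      ∀ z : XK d 0 0, (∀ y, ev z y = F y) → ‖z‖ ≤ ‖x‖ / κ.re := by
  obtain ⟨x, hx1, -, hx3⟩ := exists_X0 hH
  have hxm : Measurable (x : E d → ℂ) := (Lp.stronglyMeasurable x).measurable
  have hxi : Integrable (x : E d → ℂ) := XK.integrable le_rfl x
  obtain ⟨φ, hφ1, hφ2, hφ3, -⟩ := hF
  have hdens := H940.integrable_dens hκ hxm hxi
  have hdens2 := (integrable_weight_dens hκ hxm 2 hxi hx3).1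
  have hFφ : F = 𝓕⁻ φ := funext hφ3
  have hres : (res κ (x : E d → ℂ)) = 𝓕⁻ (dens κ (x : E d → ℂ)) :=
    funext fun y => (fourierInv_dens hκ hxm hxi y).symm
  have mom : ∀ {g : E d → ℂ}, Integrable g → Integrable (fun ξ => (1 + ‖ξ‖ ^ 2) * ‖g ξ‖) →
      Integrable fun ξ => ‖ξ‖ ^ 2 * ‖g ξ‖ := by
    intro g hg hg2
    refine hg2.mono' ?_ (Eventually.of_forall fun ξ => ?_)
    · exact (Continuous.aestronglyMeasurable (by fun_prop)).mul hg.aestronglyMeasurable.norm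
    · rw [Real.norm_of_nonneg (by positivity)]
      have := norm_nonneg (g ξ)
      have : 0 ≤ ‖g ξ‖ := this
      nlinarith
  have hφm := mom hφ1 hφ2
  have hdm := mom hdens hdens2
  set χ : E d → ℂ := fun ξ => φ ξ - dens κ (x : E d → ℂ) ξ with hχ
  have hχ1 : Integrable χ := hφ1.sub hdens
  have hχ2 : Integrable fun ξ => ‖ξ‖ ^ 2 * ‖χ ξ‖ := by
    refine (hφm.add hdm).mono' ?_ (Eventually.of_forall fun ξ => ?_)
    · exact (Continuous.aestronglyMeasurable (by fun_prop)).mul hχ1.aestronglyMeasurable.norm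
    · rw [Real.norm_of_nonneg (by positivity)]
      have h1 : ‖χ ξ‖ ≤ ‖φ ξ‖ + ‖dens κ (x : E d → ℂ) ξ‖ := norm_sub_le _ _
      calc ‖ξ‖ ^ 2 * ‖χ ξ‖ ≤ ‖ξ‖ ^ 2 * (‖φ ξ‖ + ‖dens κ (x : E d → ℂ) ξ‖) := by gcongr
        _ = _ := by simp only [Pi.add_apply]; ring
  have hlin : ∀ (c : E d → ℂ), (Integrable fun ξ => c ξ * φ ξ) →
      (Integrable fun ξ => c ξ * dens κ (x : E d → ℂ) ξ) → ∀ y,
      𝓕⁻ (fun ξ => c ξ * χ ξ) y = 𝓕⁻ (fun ξ => c ξ * φ ξ) y
        - 𝓕⁻ (fun ξ => c ξ * dens κ (x : E d → ℂ) ξ) y := by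
    intro c hc1 hc2 y
    rw [inv_eq', inv_eq', inv_eq', ← integral_sub (integrable_chr hc1 y) (integrable_chr hc2 y)]
    congr 1
    ext ξ
    simp only [hχ]
    ring
  have hm1 := integrable_mom1 hφ1 hφm
  have hd1 := integrable_mom1 hdens hdm
  have hχm1 := integrable_mom1 hχ1 hχ2
  have h0' : ∀ y, 𝓕⁻ χ y = 𝓕⁻ φ y - 𝓕⁻ (dens κ (x : E d → ℂ)) y := by
    intro y
    have := hlin (fun _ => 1) (by simpa using hφ1) (by simpa using hdens) y
    simpa using this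
  have hlap : ∀ y, lap (𝓕⁻ χ) y = lap (𝓕⁻ φ) y - lap (𝓕⁻ (dens κ (x : E d → ℂ))) y := by
    intro y
    rw [lap_inv hχ1 hχ2, lap_inv hφ1 hφm, lap_inv hdens hdm]
    refine hlin (fun ξ => -((4 * Real.pi ^ 2 * ‖ξ‖ ^ 2 : ℝ) : ℂ)) ?_ ?_ y
    · refine (hφm.const_mul (4 * Real.pi ^ 2)).mono' ?_ (Eventually.of_forall fun ξ => ?_)
      · exact (Continuous.aestronglyMeasurable (by fun_prop)).mul hφ1.aestronglyMeasurable
      · rw [norm_mul, norm_neg, Complex.norm_real, Real.norm_of_nonneg (by positivity), mul_assoc]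
    · refine (hdm.const_mul (4 * Real.pi ^ 2)).mono' ?_ (Eventually.of_forall fun ξ => ?_)
      · exact (Continuous.aestronglyMeasurable (by fun_prop)).mul hdens.aestronglyMeasurable
      · rw [norm_mul, norm_neg, Complex.norm_real, Real.norm_of_nonneg (by positivity), mul_assoc]
  have heul : ∀ y, eul (𝓕⁻ χ) y = eul (𝓕⁻ φ) y - eul (𝓕⁻ (dens κ (x : E d → ℂ))) y := by
    intro y
    rw [eul_inv hχ1 hχm1, eul_inv hφ1 hm1, eul_inv hdens hd1]
    exact hlin (fun ξ => ((2 * Real.pi * ⟪ξ, y⟫ : ℝ) : ℂ) * I)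
      (integrable_inner_mul hφ1 hm1 y) (integrable_inner_mul hdens hd1 y) y
  have hzero : ∀ y, 𝓕⁻ χ y = 0 := by
    intro y
    refine free_unique hχ1 hχ2 hκ (fun y => ?_) y
    have g1 := heq y
    rw [← hx1 y] at g1
    have g2 := res_eqn hκ hxm (le_refl 2) hxi hx3 y
    rw [hres] at g2
    have g3 : ev x y = 𝓕⁻ (x : E d → ℂ) y := rfl
    rw [g3, hFφ] at g1
    rw [h0', hlap, heul]
    linear_combination g1 - g2
  have hFres : ∀ y, F y = res κ (x : E d → ℂ) y := by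
    intro y
    rw [hres, hφ3 y]
    have := hzero y
    rw [h0'] at this
    exact sub_eq_zero.1 this
  refine ⟨x, hxm, hx1, hFres, fun z hz => ?_⟩
  have hzd : z = mkX (integrable_nu0.2 hdens) := by
    refine ev_injective le_rfl fun y => ?_
    rw [hz y, hFres y, ev_mkX le_rfl, hres]
  rw [hzd, norm_mkX0, norm_X0]
  have hx0 : Integrable fun ξ => (1 + ‖ξ‖ ^ 0) * ‖x ξ‖ := by
    simpa using hxi.norm.const_mul (1 + 1 : ℝ)
  have h7 := (integrable_weight_dens hκ hxm 0 hxi hx0).2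
  simp only [pow_zero] at h7
  rw [integral_const_mul, integral_const_mul] at h7
  have h8 : (1 + 1) * ∫ ξ, ‖dens κ (x : E d → ℂ) ξ‖ ≤ (1 + 1) * ((∫ ξ, ‖x ξ‖) / κ.re) := by
    refine h7.trans (le_of_eq ?_)
    ring
  linarith

end Vale.Agent.P139.H504
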