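import Vale.Agent.P139.H504.CR7

/-!
# P139 / H504 / CR8 : **[X7] crude exclusion** of eigenpairs with `|λ| ≥ C (m M)^20 + |w|`.
-/

open MeasureTheory Set Complex Filter Topology FourierTransform
open scoped RealInnerProductSpace ComplexConjugate

set_option linter.unusedSectionVars false

namespace Vale.Agent.P139.H504

open Vale.Agent.P139.BU Vale.Agent.P139.H940 Vale.Agent.P139.H741 Vale.Agent.P139.H201

variable {d : ℕ}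

/-- **One component.** -/
theorem comp_bound {κ : ℂ} {a : ℝ} (ha : 0 < a) (ha1 : a ≤ 1) (hκ : a ≤ κ.re) {S : ℝ}
    (hS : 1 ≤ S) (hSκ : S ^ 5 ≤ ‖κ‖) {F H : E d → ℂ} {CF CH : ℝ} (hF : WienerRep 2 F CF)
    (hH : WienerRep 2 H CH)
    (heq : ∀ y, κ * F y - (I * lap F y - (1 / 2) * eul F y) = H y)
    {N : ℝ} {u₁ u₂ v' : E d → ℂ} (hu₁ : PotB N u₁) (hu₂ : PotB N u₂) (hv' : PotB N v')
    {c₁ c₂ : ℂ} {p₁ p₂ : XK d 0 0}
    (hdec : ∀ y, H y = c₁ * (𝓕⁻ u₁ y * ev p₁ y) + c₂ * (𝓕⁻ u₂ y * ev p₂ y)) :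
    ∃ z : XK d 0 0, (∀ y, ev z y = 𝓕⁻ v' y * F y) ∧
      ‖z‖ ≤ N * N / a * (cc (4 * Real.pi ^ 2) / S) * (‖c₁‖ * ‖p₁‖ + ‖c₂‖ * ‖p₂‖) := by
  have hκ0 : 0 < κ.re := lt_of_lt_of_le ha hκ
  obtain ⟨x, hxm, hx1, hx2, -⟩ := mild_of_eqn hκ0 hF hH heq
  have hp₁ : Integrable (p₁ : E d → ℂ) := XK.integrable le_rfl p₁
  have hp₂ : Integrable (p₂ : E d → ℂ) := XK.integrable le_rfl p₂
  have hxd : x = c₁ • mulX hu₁.int (p₁ : E d → ℂ) + c₂ • mulX hu₂.int (p₂ : E d → ℂ) := by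
    refine ev_injective le_rfl fun y => ?_
    rw [hx1, hdec, ev_add le_rfl, ev_smul le_rfl, ev_smul le_rfl, ev_mulX hu₁ hp₁,
      ev_mulX hu₂ hp₂]
    rfl
  have hν : (4 * Real.pi ^ 2 : ℝ) ≠ 0 := by
    have := Real.pi_pos
    positivity
  refine ⟨DL hv'.lipB_tr ha hκ (4 * Real.pi ^ 2) x, fun y => ?_, ?_⟩
  · rw [ev_DL hv'.lipB_tr ha hκ x hxm y, hx2 y]
  · rw [hxd, map_add, map_smul, map_smul]
    refine (norm_add_le _ _).trans ?_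
    rw [norm_smul, norm_smul, mul_add]
    have b1 := norm_DL_mulX_le hv'.lipB_tr hu₁ ha ha1 hκ hν hS hSκ hp₁
    have b2 := norm_DL_mulX_le hv'.lipB_tr hu₂ ha ha1 hκ hν hS hSκ hp₂
    rw [← norm_X0] at b1 b2
    refine add_le_add ?_ ?_
    · calc ‖c₁‖ * ‖DL hv'.lipB_tr ha hκ (4 * Real.pi ^ 2) (mulX hu₁.int (p₁ : E d → ℂ))‖
          ≤ ‖c₁‖ * (N * N / a * (cc (4 * Real.pi ^ 2) / S) * ‖p₁‖) :=
            mul_le_mul_of_nonneg_left b1 (norm_nonneg _)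
        _ = _ := by ring
    · calc ‖c₂‖ * ‖DL hv'.lipB_tr ha hκ (4 * Real.pi ^ 2) (mulX hu₂.int (p₂ : E d → ℂ))‖
          ≤ ‖c₂‖ * (N * N / a * (cc (4 * Real.pi ^ 2) / S) * ‖p₂‖) :=
            mul_le_mul_of_nonneg_left b2 (norm_nonneg _)
        _ = _ := by ring

/-- the norm of a solution in terms of the two products -/
theorem norm_sol_le {κ : ℂ} {a : ℝ} (ha : 0 < a) (hκ : a ≤ κ.re) {F H : E d → ℂ} {CF CH : ℝ}
    (hF : WienerRep 2 F CF) (hH : WienerRep 2 H CH)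
    (heq : ∀ y, κ * F y - (I * lap F y - (1 / 2) * eul F y) = H y) {c₁ c₂ : ℂ}
    {z₁ z₂ xF : XK d 0 0} (hdec : ∀ y, H y = c₁ * ev z₁ y + c₂ * ev z₂ y)
    (hxF : ∀ y, ev xF y = F y) :
    ‖xF‖ ≤ (‖c₁‖ * ‖z₁‖ + ‖c₂‖ * ‖z₂‖) / a := by
  have hκ0 : 0 < κ.re := lt_of_lt_of_le ha hκ
  obtain ⟨x, hxm, hx1, hx2, hx3⟩ := mild_of_eqn hκ0 hF hH heq
  have hxd : x = c₁ • z₁ + c₂ • z₂ := by
    refine ev_injective le_rfl fun y => ?_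
    rw [hx1, hdec, ev_add le_rfl, ev_smul le_rfl, ev_smul le_rfl]
  have h1 : ‖x‖ ≤ ‖c₁‖ * ‖z₁‖ + ‖c₂‖ * ‖z₂‖ := by
    rw [hxd]
    refine (norm_add_le _ _).trans ?_
    rw [norm_smul, norm_smul]
  calc ‖xF‖ ≤ ‖x‖ / κ.re := hx3 xF hxF
    _ ≤ ‖x‖ / a := by gcongr
    _ ≤ _ := by gcongr

/-- constant -/
noncomputable def CA (d : ℕ) : ℝ := 64 * (2 + 2 * Real.pi * d) ^ 2 * cc (4 * Real.pi ^ 2) + 1

lemma one_le_CA (d : ℕ) : 1 ≤ CA d := by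
  unfold CA
  have h1 := (cc_pos (4 * Real.pi ^ 2)).le
  have h2 : 0 ≤ 64 * (2 + 2 * Real.pi * (d : ℝ)) ^ 2 * cc (4 * Real.pi ^ 2) := by positivity
  linarith

lemma size_S {m : ℕ} (hm : 1 ≤ m) {M : ℝ} (hM : 1 ≤ M) {w n : ℝ}
    (hbig : (CA d ^ 5 + 1) * (m * M) ^ 20 + |w| ≤ n) :
    (CA d * m ^ 4 * M ^ 2) ^ 5 + 1 + |w| ≤ n := by
  have hm1 : (1 : ℝ) ≤ m := by exact_mod_cast hm
  have hCA := one_le_CA d
  refine le_trans ?_ hbig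
  have e1 : (CA d * (m : ℝ) ^ 4 * M ^ 2) ^ 5 ≤ CA d ^ 5 * (m * M) ^ 20 := by
    have e2 : (CA d * (m : ℝ) ^ 4 * M ^ 2) ^ 5 = CA d ^ 5 * ((m : ℝ) ^ 20 * M ^ 10) := by ring
    rw [e2, mul_pow]
    have e3 : M ^ 10 ≤ M ^ 20 := pow_le_pow_right₀ hM (by norm_num)
    have : 0 ≤ CA d := by linarith
    gcongr
  have e5 : 1 ≤ (m : ℝ) * M := by nlinarith
  have e4 : 1 ≤ ((m : ℝ) * M) ^ 20 := one_le_pow₀ e5
  have e6 : (CA d ^ 5 + 1) * ((m : ℝ) * M) ^ 20 = CA d ^ 5 * (m * M) ^ 20 + (m * M) ^ 20 := by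
    ring
  rw [e6]
  linarith

lemma one_le_S {m : ℕ} (hm : 1 ≤ m) {M : ℝ} (hM : 1 ≤ M) :
    1 ≤ CA d * (m : ℝ) ^ 4 * M ^ 2 := by
  have hm1 : (1 : ℝ) ≤ m := by exact_mod_cast hm
  have hCA := one_le_CA d
  have hm4 : (1 : ℝ) ≤ (m : ℝ) ^ 4 := one_le_pow₀ hm1
  have hM2 : 1 ≤ M ^ 2 := one_le_pow₀ hM
  calc (1 : ℝ) = 1 * 1 * 1 := by norm_num
    _ ≤ CA d * m ^ 4 * M ^ 2 := by gcongr

lemma size_κ {z : ℂ} {a w S : ℝ} (ha : 0 ≤ a) (ha1 : a ≤ 1) (h : S + 1 + |w| ≤ ‖z‖) :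
    S ≤ ‖z + a - I * w‖ := by
  have e1 : ‖z‖ ≤ ‖z + a - I * w‖ + (‖(a : ℂ)‖ + ‖I * (w : ℂ)‖) := by
    calc ‖z‖ = ‖(z + a - I * w) - (a - I * w)‖ := by congr 1; ring
      _ ≤ ‖z + a - I * w‖ + ‖(a : ℂ) - I * w‖ := norm_sub_le _ _
      _ ≤ _ := by gcongr; exact norm_sub_le _ _
  have e2 : ‖(a : ℂ)‖ = a := by rw [Complex.norm_real, Real.norm_of_nonneg ha]
  have e3 : ‖I * (w : ℂ)‖ = |w| := by
    rw [norm_mul, Complex.norm_I, one_mul, Complex.norm_real, Real.norm_eq_abs]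
  rw [e2, e3] at e1
  linarith

lemma re_κ {z : ℂ} {a w : ℝ} (hz : 0 ≤ z.re) : a ≤ (z + a - I * w).re := by
  simp only [sub_re, add_re, mul_re, I_re, I_im, ofReal_re, ofReal_im]
  linarith

lemma delta_lt {m : ℕ} (hm : 1 ≤ m) {M : ℝ} (hM : 1 ≤ M) :
    4 * ((m : ℝ) + 1) ^ 2 * (((2 + 2 * Real.pi * d) * M) * ((2 + 2 * Real.pi * d) * M) / (aa m)
      * (cc (4 * Real.pi ^ 2) / (CA d * m ^ 4 * M ^ 2))) / (aa m) < 1 := by
  have hpi := Real.pi_pos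
  have hm1 : (1 : ℝ) ≤ m := by exact_mod_cast hm
  have hm0 : (0 : ℝ) < m := by linarith
  have hM0 : 0 < M := by linarith
  have hCA : 0 < CA d := by linarith [one_le_CA d]
  have hS0 : 0 < CA d * (m : ℝ) ^ 4 * M ^ 2 := by positivity
  have hc0pos : 0 < cc (4 * Real.pi ^ 2) := cc_pos _
  have haval : aa m = 1 / (2 * (m : ℝ)) := rfl
  have e1 : 4 * ((m : ℝ) + 1) ^ 2 * (((2 + 2 * Real.pi * d) * M) * ((2 + 2 * Real.pi * d) * M)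
      / (aa m) * (cc (4 * Real.pi ^ 2) / (CA d * m ^ 4 * M ^ 2))) / (aa m)
      = 16 * (m + 1) ^ 2 * m ^ 2 * (2 + 2 * Real.pi * d) ^ 2 * M ^ 2 * cc (4 * Real.pi ^ 2)
        / (CA d * m ^ 4 * M ^ 2) := by
    rw [haval]
    field_simp
    ring
  rw [e1, div_lt_one hS0]
  have e2 : 16 * ((m : ℝ) + 1) ^ 2 * m ^ 2 * (2 + 2 * Real.pi * d) ^ 2 * M ^ 2
      * cc (4 * Real.pi ^ 2)
      ≤ 64 * (2 + 2 * Real.pi * d) ^ 2 * cc (4 * Real.pi ^ 2) * (m ^ 4 * M ^ 2) := by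
    have e3 : ((m : ℝ) + 1) ^ 2 ≤ 4 * m ^ 2 := by nlinarith
    calc 16 * ((m : ℝ) + 1) ^ 2 * m ^ 2 * (2 + 2 * Real.pi * d) ^ 2 * M ^ 2
          * cc (4 * Real.pi ^ 2)
        ≤ 16 * (4 * m ^ 2) * m ^ 2 * (2 + 2 * Real.pi * d) ^ 2 * M ^ 2
          * cc (4 * Real.pi ^ 2) := by gcongr
      _ = _ := by ring
  have e5 : 64 * (2 + 2 * Real.pi * (d : ℝ)) ^ 2 * cc (4 * Real.pi ^ 2) < CA d := by
    unfold CA
    linarith
  have e6 : (0 : ℝ) < m ^ 4 * M ^ 2 := by positivity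
  calc _ ≤ _ := e2
    _ < CA d * (m ^ 4 * M ^ 2) := mul_lt_mul_of_pos_right e5 e6
    _ = _ := by ring

/-- first equation, resolvent form -/
lemma eqn₁ {m : ℕ} {w : ℝ} {Q f g : E d → ℂ} {lam : ℂ} {y : E d}
    (h1 : LL1 m w Q f g y = lam * f y) :
    (lam + (aa m : ℝ) - I * w) * f y - (I * lap f y - (1 / 2) * eul f y)
      = (-(I * ((m : ℂ) + 1))) * (W1 m (Q y) * f y) + (-(I * (m : ℂ))) * (W2 m (Q y) * g y) := by
  simp only [LL1] at h1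
  linear_combination (-1 : ℂ) * h1

/-- second equation, conjugated, resolvent form -/
lemma eqn₂ {m : ℕ} {w : ℝ} {Q f g : E d → ℂ} {lam : ℂ} {y : E d}
    (h2 : LL2 m w Q f g y = lam * g y) :
    (conj lam + (aa m : ℝ) - I * w) * conj (g y) - (I * lap (fun y => conj (g y)) y
        - (1 / 2) * eul (fun y => conj (g y)) y)
      = (-(I * ((m : ℂ) + 1))) * (W1 m (Q y) * conj (g y))
        + (-(I * (m : ℂ))) * (W2 m (Q y) * conj (f y)) := by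
  have := congrArg conj h2
  simp only [LL2, map_add, map_sub, map_mul, map_neg, Complex.conj_I, Complex.conj_ofReal,
    map_natCast, map_one, map_div₀, map_ofNat, W1_cj, Complex.conj_conj] at this
  rw [lap_cj, eul_cj]
  linear_combination (-1 : ℂ) * this

lemma nc₁ (m : ℕ) : ‖-(I * ((m : ℂ) + 1))‖ = m + 1 := by
  rw [norm_neg, norm_mul, Complex.norm_I, one_mul]
  have : ((m : ℂ) + 1) = (((m : ℝ) + 1 : ℝ) : ℂ) := by push_cast; ring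
  rw [this, Complex.norm_real, Real.norm_of_nonneg (by positivity)]

lemma nc₂ (m : ℕ) : ‖-(I * (m : ℂ))‖ = m := by
  rw [norm_neg, norm_mul, Complex.norm_I, one_mul, Complex.norm_natCast]

lemma close_T {n δ a X Y : ℝ} (hn : 0 ≤ n) (hδ : 0 ≤ δ) (ha : 0 < a) (hX : 0 ≤ X) (hY : 0 ≤ Y)
    (bX : X ≤ ((n + 1) * (δ * ((n + 1) * (X + Y))) + n * (δ * ((n + 1) * (X + Y)))) / a)
    (bY : Y ≤ ((n + 1) * (δ * ((n + 1) * (X + Y))) + n * (δ * ((n + 1) * (X + Y)))) / a)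
    (hlt : 4 * (n + 1) ^ 2 * δ / a < 1) : X = 0 ∧ Y = 0 := by
  set T : ℝ := X + Y with hT
  have hT0 : 0 ≤ T := by positivity
  have e1 : (n + 1) * (δ * ((n + 1) * T)) + n * (δ * ((n + 1) * T))
      ≤ 2 * (n + 1) ^ 2 * δ * T := by
    have h0 : 0 ≤ δ * ((n + 1) * T) := by positivity
    have h1 : 2 * (n + 1) ^ 2 * δ * T = 2 * (n + 1) * (δ * ((n + 1) * T)) := by ring
    rw [h1]
    linarith
  have e3 : ((n + 1) * (δ * ((n + 1) * T)) + n * (δ * ((n + 1) * T))) / a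
      ≤ 2 * (n + 1) ^ 2 * δ * T / a := by gcongr
  have e2 : T ≤ (4 * (n + 1) ^ 2 * δ / a) * T := by
    have h2 : (4 * (n + 1) ^ 2 * δ / a) * T = 2 * (2 * (n + 1) ^ 2 * δ * T / a) := by ring
    rw [h2]
    linarith
  have hTz : T = 0 := by
    by_contra hne
    have hTpos : 0 < T := lt_of_le_of_ne hT0 (Ne.symm hne)
    have := mul_lt_mul_of_pos_right hlt hTpos
    linarith
  constructor <;> linarith

/-- the four products, abstractly -/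
lemma key_prod {κ : ℂ} {m : ℕ} {a : ℝ} (ha : 0 < a) (ha1 : a ≤ 1) (hκ : a ≤ κ.re) {S N : ℝ}
    (hN : 0 ≤ N) (hS : 1 ≤ S) (hSκ : S ^ 5 ≤ ‖κ‖) {F H : E d → ℂ} {CF CH : ℝ}
    (hF : WienerRep 2 F CF) (hH : WienerRep 2 H CH)
    (heq : ∀ y, κ * F y - (I * lap F y - (1 / 2) * eul F y) = H y)
    {u₁ u₂ v' : E d → ℂ} (hu₁ : PotB N u₁) (hu₂ : PotB N u₂) (hv' : PotB N v')
    {p₁ p₂ : XK d 0 0}
    (hdec : ∀ y, H y = (-(I * ((m : ℂ) + 1))) * (𝓕⁻ u₁ y * ev p₁ y)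
      + (-(I * (m : ℂ))) * (𝓕⁻ u₂ y * ev p₂ y)) :
    ∃ z : XK d 0 0, (∀ y, ev z y = 𝓕⁻ v' y * F y) ∧
      ‖z‖ ≤ N * N / a * (cc (4 * Real.pi ^ 2) / S) * ((m + 1) * (‖p₁‖ + ‖p₂‖)) := by
  obtain ⟨z, hz1, hz2⟩ := comp_bound ha ha1 hκ hS hSκ hF hH heq hu₁ hu₂ hv' hdec
  refine ⟨z, hz1, hz2.trans ?_⟩
  rw [nc₁, nc₂]
  have hc := (cc_pos (4 * Real.pi ^ 2)).le
  have hS0 : 0 < S := by linarith
  refine mul_le_mul_of_nonneg_left ?_ (by positivity)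
  have := norm_nonneg p₂
  rw [mul_add]
  have : (m : ℝ) * ‖p₂‖ ≤ (m + 1) * ‖p₂‖ := by gcongr; linarith
  linarith

/-- the bound for one component, abstractly -/
lemma key_bound {κ : ℂ} {m : ℕ} {a b : ℝ} (ha : 0 < a) (hκ : a ≤ κ.re) {F H : E d → ℂ}
    {CF CH : ℝ} (hF : WienerRep 2 F CF) (hH : WienerRep 2 H CH)
    (heq : ∀ y, κ * F y - (I * lap F y - (1 / 2) * eul F y) = H y)
    {z₁ z₂ xF : XK d 0 0} (hdec : ∀ y, H y = (-(I * ((m : ℂ) + 1))) * ev z₁ y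
      + (-(I * (m : ℂ))) * conj (ev z₂ y)) (hxF : ∀ y, ev xF y = F y)
    (hz₁ : ‖z₁‖ ≤ b) (hz₂ : ‖z₂‖ ≤ b) :
    ‖xF‖ ≤ ((m + 1) * b + m * b) / a := by
  have := norm_sol_le ha hκ hF hH heq (c₁ := -(I * ((m : ℂ) + 1)))
    (c₂ := -(I * (m : ℂ))) (z₁ := z₁) (z₂ := starX le_rfl z₂) (xF := xF)
    (fun y => by rw [ev_starX le_rfl, hdec]) hxF
  rw [nc₁, nc₂, norm_starX le_rfl z₂] at this
  refine this.trans ?_
  gcongr

/-- **[X7]** crude exclusion. -/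
theorem crude_exclusion {m : ℕ} (hm : 1 ≤ m) {w M : ℝ} (hM : 1 ≤ M) {Q : E d → ℂ}
    (hV : WienerRep 2 (fun y => W1 m (Q y)) M)
    (hVy : ∀ j : Fin d, WienerRep 0 (fun y => ((y j : ℝ) : ℂ) * W1 m (Q y)) M)
    (hW : WienerRep 2 (fun y => W2 m (Q y)) M)
    (hWy : ∀ j : Fin d, WienerRep 0 (fun y => ((y j : ℝ) : ℂ) * W2 m (Q y)) M)
    {lam : ℂ} (hlam : 0 ≤ lam.re)
    (hbig : (CA d ^ 5 + 1) * (m * M) ^ 20 + |w| ≤ ‖lam‖)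
    {f g : E d → ℂ} {Cf Cg : ℝ} (hf : WienerRep 2 f Cf) (hg : WienerRep 2 g Cg)
    (h1 : ∀ x, LL1 m w Q f g x = lam * f x) (h2 : ∀ x, LL2 m w Q f g x = lam * g x) :
    ∀ x, f x = 0 ∧ g x = 0 := by
  have hpi := Real.pi_pos
  have hm1 : (1 : ℝ) ≤ m := by exact_mod_cast hm
  have hM0 : 0 ≤ M := by linarith
  have ha : 0 < aa m := by unfold aa; positivity
  have ha1 : aa m ≤ 1 := by
    unfold aa
    rw [div_le_one (by positivity)]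
    linarith
  have hN0 : 0 ≤ (2 + 2 * Real.pi * d) * M := by positivity
  have hS1 := one_le_S (d := d) hm hM
  have hS5 := size_S hm hM hbig
  have hκ₁S := size_κ (a := aa m) ha.le ha1 hS5
  have hκ₂S := size_κ (z := conj lam) (a := aa m) ha.le ha1
    (by rw [RCLike.norm_conj]; exact hS5)
  have hκ₁re : aa m ≤ (lam + (aa m : ℝ) - I * w).re := re_κ hlam
  have hκ₂re : aa m ≤ (conj lam + (aa m : ℝ) - I * w).re :=
    re_κ (by rw [Complex.conj_re]; exact hlam)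
  -- potentials
  obtain ⟨v₁, hv₁, hv₁f⟩ := exists_PotB hM0 hV hVy
  obtain ⟨v₂, hv₂, hv₂f⟩ := exists_PotB hM0 hW hWy
  obtain ⟨v₃, hv₃, hv₃f⟩ := exists_PotB (V := fun y => conj (W2 m (Q y))) hM0
    (H744.WienerRep.conj hW) (fun j => by
      have := H744.WienerRep.conj (hWy j)
      simpa only [map_mul, Complex.conj_ofReal] using this)
  -- the two functions and their conjugates
  obtain ⟨xf, hxf, -, -⟩ := exists_X0 hf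
  obtain ⟨xg, hxg, -, -⟩ := exists_X0 hg
  have hyfe : ∀ y, ev (starX le_rfl xf) y = conj (f y) := fun y => by
    rw [ev_starX le_rfl, hxf]
  have hyge : ∀ y, ev (starX le_rfl xg) y = conj (g y) := fun y => by
    rw [ev_starX le_rfl, hxg]
  have hyfn : ‖starX le_rfl xf‖ = ‖xf‖ := norm_starX le_rfl xf
  have hygn : ‖starX le_rfl xg‖ = ‖xg‖ := norm_starX le_rfl xg
  have hfc := H744.WienerRep.conj hf
  have hgc := H744.WienerRep.conj hg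
  have hH₁w := H744.WienerRep.add'
    (H744.WienerRep.const_mul (H744.WienerRep.mul hV hf) (-(I * ((m : ℂ) + 1))))
    (H744.WienerRep.const_mul (H744.WienerRep.mul hW hg) (-(I * (m : ℂ))))
  have hH₂w := H744.WienerRep.add'
    (H744.WienerRep.const_mul (H744.WienerRep.mul hV hgc) (-(I * ((m : ℂ) + 1))))
    (H744.WienerRep.const_mul (H744.WienerRep.mul hW hfc) (-(I * (m : ℂ))))
  have heq₁ := fun y => eqn₁ (h1 y)
  have heq₂ := fun y => eqn₂ (h2 y)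
  -- the four products
  obtain ⟨z₁, hz₁, hz₁n⟩ := key_prod ha ha1 hκ₁re hN0 hS1 hκ₁S hf hH₁w heq₁ hv₁ hv₂ hv₁
    (p₁ := xf) (p₂ := xg) (fun y => by rw [hv₁f, hv₂f, hxf, hxg])
  obtain ⟨z₄, hz₄, hz₄n⟩ := key_prod ha ha1 hκ₁re hN0 hS1 hκ₁S hf hH₁w heq₁ hv₁ hv₂ hv₃
    (p₁ := xf) (p₂ := xg) (fun y => by rw [hv₁f, hv₂f, hxf, hxg])
  obtain ⟨z₃, hz₃, hz₃n⟩ := key_prod ha ha1 hκ₂re hN0 hS1 hκ₂S hgc hH₂w heq₂ hv₁ hv₂ hv₁
    (p₁ := starX le_rfl xg) (p₂ := starX le_rfl xf)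
    (fun y => by rw [hv₁f, hv₂f, hyge, hyfe])
  obtain ⟨z₂, hz₂, hz₂n⟩ := key_prod ha ha1 hκ₂re hN0 hS1 hκ₂S hgc hH₂w heq₂ hv₁ hv₂ hv₃
    (p₁ := starX le_rfl xg) (p₂ := starX le_rfl xf)
    (fun y => by rw [hv₁f, hv₂f, hyge, hyfe])
  rw [hyfn, hygn, add_comm ‖xg‖ ‖xf‖] at hz₃n hz₂n
  have bf := key_bound ha hκ₁re hf hH₁w heq₁ (z₁ := z₁) (z₂ := z₂) (xF := xf)
    (fun y => by
      rw [hz₁, hz₂, hv₁f, hv₃f, map_mul, Complex.conj_conj, Complex.conj_conj])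
    hxf hz₁n hz₂n
  have bg := key_bound ha hκ₂re hgc hH₂w heq₂ (z₁ := z₃) (z₂ := z₄) (xF := starX le_rfl xg)
    (fun y => by rw [hz₃, hz₄, hv₁f, hv₃f, map_mul, Complex.conj_conj])
    hyge hz₃n hz₄n
  rw [hygn] at bg
  have hc := (cc_pos (4 * Real.pi ^ 2)).le
  have hm0 : (0 : ℝ) ≤ m := by linarith
  have hS0 : 0 < CA d * (m : ℝ) ^ 4 * M ^ 2 := by linarith
  obtain ⟨hX, hY⟩ := close_T hm0 (by positivity) ha (norm_nonneg xf) (norm_nonneg xg) bf bg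
    (delta_lt hm hM)
  have hxf0 : xf = 0 := norm_eq_zero.1 hX
  have hxg0 : xg = 0 := norm_eq_zero.1 hY
  intro x
  rw [← hxf x, ← hxg x, hxf0, hxg0]
  exact ⟨ev_zero le_rfl x, ev_zero le_rfl x⟩

end Vale.Agent.P139.H504
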