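import Vale.Agent.P139.H504.CR8
import Vale.Agent.P139.H607.S1Spec
import Vale.Agent.P139.H644.Pot
import Vale.Agent.P139.H523.X2d

/-!
# P139 / H504 / E1 : **[X8.E1]** `ExtE1` from the profile package `UP`
-/

open MeasureTheory Set Complex Filter Topology
open scoped ComplexConjugate ContDiff

set_option linter.unusedSectionVars false

namespace Vale.Agent.P139.H504

open Vale.Agent.P139.BU Vale.Agent.P139.H201 Vale.Agent.P139.H644 Vale.Agent.P139.H523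

variable {d : ℕ}

/-- The coordinate as a continuous linear map to `ℂ`. -/
noncomputable def cooC (j : Fin d) : E d →L[ℝ] ℂ :=
  Complex.ofRealCLM.comp (EuclideanSpace.proj j : E d →L[ℝ] ℝ)

lemma cooC_apply (j : Fin d) (y : E d) : cooC j y = ((y j : ℝ) : ℂ) := rfl

/-- The four Wiener facts with a constant polynomial in `m`, from symbol bounds. -/
lemma wiener_of_symN (d : ℕ) : ∃ B : ℝ, 1 ≤ B ∧ ∀ (V : E d → ℂ) (A : ℝ), 0 ≤ A →
    SymN (nd (E d) 2) 2 A V → WienerRep 2 V (B * A) ∧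
      ∀ j : Fin d, WienerRep 0 (fun y => ((y j : ℝ) : ℂ) * V y) (B * A) := by
  obtain ⟨C2, hC2, H2⟩ := WienerRep.symbol (E d) ℂ 2 (δ := 2) (by norm_num)
  obtain ⟨C0, hC0, H0⟩ := WienerRep.symbol (E d) ℂ 0 (δ := 1) (by norm_num)
  set N := nd (E d) 0 with hN
  set S : ℝ := ∑ j : Fin d, ‖cooC (d := d) j‖ with hS
  have hS0 : 0 ≤ S := Finset.sum_nonneg fun _ _ => norm_nonneg _
  refine ⟨1 + C2 + C0 * (S * 2 ^ N), by nlinarith [mul_nonneg hC0.le (mul_nonneg hS0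
    (pow_nonneg (by norm_num : (0:ℝ) ≤ 2) N))], fun V A hA hV => ⟨?_, fun j => ?_⟩⟩
  · refine (H2 V A hA hV.1 hV.2).mono ?_
    have : 0 ≤ C0 * (S * 2 ^ N) * A := by positivity
    nlinarith
  · have hle : nd (E d) 0 ≤ nd (E d) 2 := by unfold nd; omega
    have h1 : SymN N (-1) (‖cooC (d := d) j‖ * 1) (fun y : E d => cooC j y) :=
      (SymN.id (N := N)).clm (cooC j)
    have h2 := h1.mul (hV.mono hle le_rfl le_rfl)
    have e : (-1 + 2 : ℝ) = 1 := by norm_num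
    rw [e, mul_one] at h2
    have hj : ‖cooC (d := d) j‖ ≤ S :=
      Finset.single_le_sum (f := fun j : Fin d => ‖cooC (d := d) j‖)
        (fun _ _ => norm_nonneg _) (Finset.mem_univ j)
    refine (H0 _ _ h2.nonneg h2.1 h2.2).mono ?_
    have h3 : C0 * (‖cooC (d := d) j‖ * A * 2 ^ N) ≤ C0 * (S * A * 2 ^ N) := by gcongr
    have : 0 ≤ C2 * A := by positivity
    nlinarith

variable {B : Set (ℝ × ℝ)} {m0 : ℕ} {w R : ℕ → ℝ} {q : ℕ → ℝ → ℂ}

/-- The four Wiener facts for the profiles. -/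
lemma wiener_UP (h : UP d B m0 w R q) : ∃ (b : ℝ) (A : ℕ), 1 ≤ b ∧ ∀ m, m0 ≤ m →
    WienerRep 2 (fun y : E d => W1 m (q m ‖y‖)) (b * (m : ℝ) ^ A) ∧
    (∀ j : Fin d, WienerRep 0 (fun y : E d => ((y j : ℝ) : ℂ) * W1 m (q m ‖y‖))
      (b * (m : ℝ) ^ A)) ∧
    WienerRep 2 (fun y : E d => W2 m (q m ‖y‖)) (b * (m : ℝ) ^ A) ∧
    (∀ j : Fin d, WienerRep 0 (fun y : E d => ((y j : ℝ) : ℂ) * W2 m (q m ‖y‖))
      (b * (m : ℝ) ^ A)) := by
  obtain ⟨B0, hB0, hB⟩ := wiener_of_symN d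
  obtain ⟨A, hA⟩ := pot_global h (nd (E d) 2)
  refine ⟨B0 * (1 + A), A, ?_, fun m hm => ?_⟩
  · have : (0 : ℝ) ≤ A := Nat.cast_nonneg A
    nlinarith
  · have hm1 : 1 ≤ m := h.m0_pos.trans hm
    have hAm : 0 ≤ (A : ℝ) * (m : ℝ) ^ A := by positivity
    have hle : B0 * ((A : ℝ) * (m : ℝ) ^ A) ≤ B0 * (1 + A) * (m : ℝ) ^ A := by
      have : 0 ≤ B0 * (m : ℝ) ^ A := by positivity
      nlinarith
    have s1 : SymN (nd (E d) 2) 2 (A * (m : ℝ) ^ A) (fun y : E d => W1 m (q m ‖y‖)) :=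
      ⟨(((isSym_V hm1 (h.prof m hm)).contDiff).of_le (by exact_mod_cast le_top)),
        fun k hk x => (hA m hm k hk x).1⟩
    have s2 : SymN (nd (E d) 2) 2 (A * (m : ℝ) ^ A) (fun y : E d => W2 m (q m ‖y‖)) :=
      ⟨(((isSym_V2 hm1 (h.prof m hm)).contDiff).of_le (by exact_mod_cast le_top)),
        fun k hk x => (hA m hm k hk x).2.1⟩
    obtain ⟨a1, a2⟩ := hB _ _ hAm s1
    obtain ⟨a3, a4⟩ := hB _ _ hAm s2
    exact ⟨a1.mono hle, fun j => (a2 j).mono hle, a3.mono hle, fun j => (a4 j).mono hle⟩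

/-- **[X8.E1]** -/
theorem extE1 (hd : 3 ≤ d) (h : UP d B m0 w R q) {K : ℕ} (hK : 2 * (d + 5) ≤ K) :
    Vale.Agent.P139.H607.ExtE1 d K w q := by
  obtain ⟨b, A, hb, hwie⟩ := wiener_UP h
  obtain ⟨w1, hw1, hwb⟩ := h.wbd
  set c : ℝ := (CA d ^ 5 + 1) * b ^ 20 + 1 with hc
  obtain ⟨n1, hn1⟩ := exists_nat_ge c
  refine ⟨20 * (A + 1) + 1, max m0 (max n1 1), fun m hm l lam hlam hbig F G hEP r hr => ?_⟩
  have hm0 : m0 ≤ m := (le_max_left _ _).trans hm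
  have hmn : n1 ≤ m := (le_max_left _ _).trans ((le_max_right _ _).trans hm)
  have hm1 : 1 ≤ m := (le_max_right _ _).trans ((le_max_right _ _).trans hm)
  have hm1' : (1 : ℝ) ≤ m := by exact_mod_cast hm1
  obtain ⟨v1, v2, v3, v4⟩ := hwie m hm0
  have hcm : c ≤ m := hn1.trans (by exact_mod_cast hmn)
  have hmA : (1 : ℝ) ≤ (m : ℝ) ^ A := one_le_pow₀ hm1'
  have hM : 1 ≤ b * (m : ℝ) ^ A := by nlinarith
  have hCA := one_le_CA d
  have hthr : (CA d ^ 5 + 1) * (m * (b * (m : ℝ) ^ A)) ^ 20 + |w m| ≤ ‖lam‖ := by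
    refine le_trans ?_ hbig.le
    have e1 : (m * (b * (m : ℝ) ^ A)) ^ 20 = b ^ 20 * (m : ℝ) ^ (20 * (A + 1)) := by
      rw [show 20 * (A + 1) = (A + 1) * 20 by ring, pow_mul, pow_succ]
      ring
    have e2 : |w m| ≤ 1 := by
      rw [abs_of_pos (h.wpos m hm0)]
      exact (hwb m hm0).2
    have e3 : (1 : ℝ) ≤ (m : ℝ) ^ (20 * (A + 1)) := one_le_pow₀ hm1'
    have e6 : (m : ℝ) ^ (20 * (A + 1) + 1) = m * (m : ℝ) ^ (20 * (A + 1)) := pow_succ' _ _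
    rw [e1, e6]
    have e4 : c * (m : ℝ) ^ (20 * (A + 1)) ≤ m * (m : ℝ) ^ (20 * (A + 1)) := by gcongr
    have e5 : c * (m : ℝ) ^ (20 * (A + 1)) = (CA d ^ 5 + 1) * (b ^ 20 * (m : ℝ) ^ (20 * (A + 1)))
        + (m : ℝ) ^ (20 * (A + 1)) := by rw [hc]; ring
    rw [e5] at e4
    linarith
  obtain ⟨hF, hG, X⟩ := mode_pair_hom (d := d) (Q := fun x : E d => q m ‖x‖) hd hm1
    (h.prof m hm0) (fun _ => rfl) hlam (J := d + 5) hEP.hF hEP.hG (by omega) hK hEP.e1 hEP.e2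
  have hd2 : 2 ≤ d := by omega
  have hP := harmP_pow hd2 l
  have hnd : nd (E d) 2 + 2 ≤ d + 5 := by
    unfold nd
    rw [show Module.finrank ℝ (E d) = d from finrank_euclideanSpace_fin]
  obtain ⟨Cf, hf⟩ := X.wien1 _ hP 2 hnd
  obtain ⟨Cg, hg⟩ := X.wien2 _ hP 2 hnd
  have hz : ∀ x, modeFn (fun _ : ℝ => (0 : ℂ)) (fun y : E d => (lin01 hd2 y) ^ l) x = 0 := by
    intro x
    unfold modeFn
    rw [zero_mul]
  have key := crude_exclusion hm1 hM v1 v2 v3 v4 hlam hthr hf hg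
    (fun x => by rw [X.eq1 _ hP x, hz, add_zero]) (fun x => by rw [X.eq2 _ hP x, hz, add_zero])
  set y : E d := EuclideanSpace.single (⟨0, by omega⟩ : Fin d) r with hy
  have hny : ‖y‖ = r := by
    rw [hy, PiLp.norm_single, Real.norm_of_nonneg hr.le]
  have hly : lin01 hd2 y = r := by
    have e0 : y ⟨0, by omega⟩ = r := by rw [hy]; simp
    have e1 : y ⟨1, by omega⟩ = 0 := by rw [hy]; simp
    have e2 : lin01 hd2 y = (y ⟨0, by omega⟩ : ℂ) + I * (y ⟨1, by omega⟩ : ℂ) := by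
      simp [lin01]
    rw [e2, e0, e1]
    simp
  obtain ⟨k1, k2⟩ := key y
  unfold modeFn at k1 k2
  beta_reduce at k1 k2
  rw [hny, hly] at k1 k2
  exact ⟨by rw [X.eF r hr, mul_comm]; exact k1, by rw [X.eG r hr, mul_comm]; exact k2⟩

end Vale.Agent.P139.H504
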